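import Claimed.Agent.R280.Spec.Defs

/-!
# Row 280, package Val (valued fields with value group in `ℚ`): definitions

The basic notions `ResMap v k`, `ResMap.res`, `IsSphComplete v` are in `Spec/Defs.lean` (helper66).  Here:
* `ValExt v' v`       : `v'` (on `L'`) extends `v` (on `L`).
* `ResExt r' r`       : the residue maps are compatible with `algebraMap F F'`.
* `VNorm v U`         : valuation norms on an `L`-vector space `U`.
-/

set_option autoImplicit false

namespace Claimed.Agent.R280

open WithZero

/-- `v'` extends `v` -/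
def ValExt {L L' : Type} [Field L] [Field L'] [Algebra L L'] (v' : Valuation L' ℚᵐ⁰)
    (v : Valuation L ℚᵐ⁰) : Prop := ∀ a : L, v' (algebraMap L L' a) = v a

/-- the residue maps are compatible -/
def ResExt {L L' F F' : Type} [Field L] [Field L'] [Algebra L L'] [Field F] [Field F'] [Algebra F F']
    {v' : Valuation L' ℚᵐ⁰} {v : Valuation L ℚᵐ⁰} (r' : ResMap v' F') (r : ResMap v F) : Prop :=
  ∀ a : L, v a ≤ 1 → r'.res (algebraMap L L' a) = algebraMap F F' (r.res a)

/-- a valuation norm on the `L`-vector space `U` -/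
structure VNorm {L : Type} [Field L] (v : Valuation L ℚᵐ⁰) (U : Type) [AddCommGroup U]
    [Module L U] where
  nm : U → ℚᵐ⁰
  nm_eq_zero : ∀ u, nm u = 0 ↔ u = 0
  nm_add : ∀ u u', nm (u + u') ≤ max (nm u) (nm u')
  nm_smul : ∀ (a : L) (u : U), nm (a • u) = v a * nm u

end Claimed.Agent.R280
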