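import Claimed.Agent.R280.Val.Defs

/-!
# Row 280, package Val0 (`Val/V0Ext.lean`): prolongation of a `ℚ`-valued valuation to an algebraic extension

* Val0a (~250 lines, ordered groups only) `exists_extend_orderHom`: `Γ'` a linearly ordered commutative group, `Γ ≤ Γ'` with `Γ'/Γ` torsion, `f : Γ →* Multiplicative ℚ` strictly monotone.
  Then `f` extends to a strictly monotone `f' : Γ' →* Multiplicative ℚ`:  `f' γ := (f (γ ^ n)) ^ (1/n)` (in `ℚ`: divide by `n`), independent of `n` (`Γ'` and `ℚ` are torsion free), multiplicative (common `n`),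
  strictly monotone (`γ < γ' ↔ γ ^ n < γ' ^ n`).
* Val0b (~450 lines) `exists_pow_valuation_eq`, `exists_valExt_val`.
  - Chevalley: `V'` a valuation ring of `L'` dominating the image of `v.valuationSubring` (`LocalSubring.exists_le_valuationSubring`); then `V' ∩ L = O_v` (as in `Place.exists_above_gen`).
  - `exists_pow_valuation_eq`: in a relation `∑ a_i x ^ i = 0` two nonzero terms have the same (maximal) value (`Valuation.map_sum_lt`-type argument), so `w (x ^ (j - i)) = w (a_i / a_j)`.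
  - `Γ' := (V'.ValueGroup)ˣ`, `Γ :=` the image of `Lˣ`, `f (V'.valuation a) := v a` (well defined and strictly monotone since `V' ∩ L = O_v`); `v' := V'.valuation.map f'₀` (`Valuation.map`, `WithZero.map'`/`MonoidWithZeroHom`
    built from `f'`).
* Val0c (~300 lines) `exists_valExt` (residue field `F' := IsLocalRing.ResidueField v'.valuationSubring`; `Algebra F F'` through `F ≅ O_v / 𝔪_v → O_v' / 𝔪_v'`, cf. `ResMap.lift` in `Spec/ValIface.lean`: copy it or move it here),
  `ResExt.isAlgebraic` (normalise a relation `∑ a_i x ^ i = 0` so that `max v (a_i) = 1` and reduce).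

Owner of the statements: helper129 / helper256.
-/

set_option autoImplicit false

namespace Claimed.Agent.R280

open WithZero

theorem val0a_key {Γ' : Type} [CommGroup Γ'] (Γ : Subgroup Γ') (f : Γ →* Multiplicative ℚ) (γ : Γ') {n m : ℕ}
    (hn : γ ^ n ∈ Γ) (hm : γ ^ m ∈ Γ) :
    (m : ℚ) * Multiplicative.toAdd (f ⟨γ ^ n, hn⟩) = (n : ℚ) * Multiplicative.toAdd (f ⟨γ ^ m, hm⟩) := by
  have h : (⟨γ ^ n, hn⟩ : Γ) ^ m = (⟨γ ^ m, hm⟩ : Γ) ^ n := by
    apply Subtype.ext
    simp only [SubmonoidClass.coe_pow]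
    rw [← pow_mul, ← pow_mul, mul_comm]
  have h2 := congrArg (fun x => Multiplicative.toAdd (f x)) h
  simp only [map_pow, toAdd_pow, nsmul_eq_mul] at h2
  exact h2

/-- extension of a strictly monotone homomorphism to `ℚ` along a torsion extension of ordered groups -/
theorem exists_extend_orderHom {Γ' : Type} [CommGroup Γ'] [LinearOrder Γ'] [IsOrderedMonoid Γ']
    (Γ : Subgroup Γ') (htors : ∀ γ : Γ', ∃ n : ℕ, 0 < n ∧ γ ^ n ∈ Γ) (f : Γ →* Multiplicative ℚ)
    (hf : StrictMono f) :
    ∃ f' : Γ' →* Multiplicative ℚ, StrictMono f' ∧ ∀ γ : Γ, f' γ = f γ := by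
  classical
  choose n hn0 hn using htors
  let g : Γ' → ℚ := fun γ => Multiplicative.toAdd (f ⟨γ ^ n γ, hn γ⟩) / (n γ : ℚ)
  have hg : ∀ (γ : Γ') (m : ℕ) (hm : γ ^ m ∈ Γ),
      Multiplicative.toAdd (f ⟨γ ^ m, hm⟩) = (m : ℚ) * g γ := by
    intro γ m hm
    have h := val0a_key Γ f γ (hn γ) hm
    have h0 : (n γ : ℚ) ≠ 0 := by exact_mod_cast (hn0 γ).ne'
    simp only [g]
    field_simp
    linarith
  have hpow : ∀ (γ : Γ') (k : ℕ), γ ^ (n γ * k) ∈ Γ := fun γ k => by
    rw [pow_mul]
    exact Γ.pow_mem (hn γ) k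
  have hcommon : ∀ a b : Γ', ∃ N : ℕ, 0 < N ∧ a ^ N ∈ Γ ∧ b ^ N ∈ Γ := by
    intro a b
    refine ⟨n a * n b, Nat.mul_pos (hn0 a) (hn0 b), hpow a (n b), ?_⟩
    rw [mul_comm]
    exact hpow b (n a)
  have hmul : ∀ a b, g (a * b) = g a + g b := by
    intro a b
    obtain ⟨N, hN, ha, hb⟩ := hcommon a b
    have hN0 : (N : ℚ) ≠ 0 := by exact_mod_cast hN.ne'
    have hab : (a * b) ^ N ∈ Γ := by
      rw [mul_pow]
      exact Γ.mul_mem ha hb
    have h1 := hg (a * b) N hab
    have h2 := hg a N ha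
    have h3 := hg b N hb
    have h4 : (⟨(a * b) ^ N, hab⟩ : Γ) = ⟨a ^ N, ha⟩ * ⟨b ^ N, hb⟩ := Subtype.ext (mul_pow a b N)
    rw [h4, map_mul, toAdd_mul, h2, h3] at h1
    have h5 : (N : ℚ) * (g a + g b) = N * g (a * b) := by linarith
    exact (mul_left_cancel₀ hN0 h5).symm
  refine ⟨MonoidHom.mk' (fun γ => Multiplicative.ofAdd (g γ)) (fun a b => by rw [hmul, ofAdd_add]), ?_, ?_⟩
  · intro a b hab
    obtain ⟨N, hN, ha, hb⟩ := hcommon a b
    have hN0 : (0 : ℚ) < (N : ℚ) := by exact_mod_cast hN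
    have h1 : (⟨a ^ N, ha⟩ : Γ) < ⟨b ^ N, hb⟩ := by
      show a ^ N < b ^ N
      exact pow_lt_pow_left' hN.ne' hab
    have h2 : Multiplicative.toAdd (f ⟨a ^ N, ha⟩) < Multiplicative.toAdd (f ⟨b ^ N, hb⟩) := hf h1
    rw [hg a N ha, hg b N hb] at h2
    show Multiplicative.ofAdd (g a) < Multiplicative.ofAdd (g b)
    exact Multiplicative.ofAdd_lt.2 (lt_of_mul_lt_mul_left h2 hN0.le)
  · intro γ
    have h1 : (γ : Γ') ^ 1 ∈ Γ := by
      rw [pow_one]
      exact γ.2
    have h2 := hg (γ : Γ') 1 h1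
    have h3 : (⟨(γ : Γ') ^ 1, h1⟩ : Γ) = γ := Subtype.ext (pow_one _)
    rw [h3, Nat.cast_one, one_mul] at h2
    show Multiplicative.ofAdd (g γ) = f γ
    rw [← h2]
    rfl

/-- two terms of the same value: the arithmetic -/
theorem v0b_pow_of_eq {L L' Γ₀ : Type} [Field L] [Field L'] [Algebra L L']
    [LinearOrderedCommGroupWithZero Γ₀] (w : Valuation L' Γ₀) {x : L'} (hx0 : x ≠ 0) {a b : L} (ha : a ≠ 0)
    (hb : b ≠ 0) {i j : ℕ} (hij : i < j)
    (h : w (algebraMap L L' a * x ^ i) = w (algebraMap L L' b * x ^ j)) :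
    ∃ (n : ℕ) (c : L), 0 < n ∧ c ≠ 0 ∧ w (x ^ n) = w (algebraMap L L' c) := by
  refine ⟨j - i, a / b, by omega, div_ne_zero ha hb, ?_⟩
  have hb' : w (algebraMap L L' b) ≠ 0 := (Valuation.ne_zero_iff _).2 (by simpa using hb)
  have hxi : w (x ^ i) ≠ 0 := (Valuation.ne_zero_iff _).2 (pow_ne_zero _ hx0)
  have e : x ^ j = x ^ (j - i) * x ^ i := by rw [← pow_add]; congr 1; omega
  rw [e, map_mul, map_mul, map_mul] at h
  rw [map_div₀, map_div₀, eq_div_iff hb']
  have h2 : w (algebraMap L L' a) * w (x ^ i) = (w (x ^ (j - i)) * w (algebraMap L L' b)) * w (x ^ i) := by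
    rw [h, ← mul_assoc, mul_comm (w (algebraMap L L' b))]
  exact (mul_right_cancel₀ hxi h2).symm

/-- a power of an algebraic element has the value of an element of the base field -/
theorem exists_pow_valuation_eq {L L' Γ₀ : Type} [Field L] [Field L'] [Algebra L L']
    [LinearOrderedCommGroupWithZero Γ₀] (w : Valuation L' Γ₀) {x : L'} (hx : IsAlgebraic L x)
    (hx0 : x ≠ 0) : ∃ (n : ℕ) (a : L), 0 < n ∧ a ≠ 0 ∧ w (x ^ n) = w (algebraMap L L' a) := by
  classical
  obtain ⟨p, hp0, hp⟩ := hx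
  rw [Polynomial.aeval_def, Polynomial.eval₂_eq_sum, Polynomial.sum_def] at hp
  have hne : p.support.Nonempty := Polynomial.nonempty_support_iff.2 hp0
  obtain ⟨j, hj, hmax⟩ := Finset.exists_max_image p.support
    (fun i => w (algebraMap L L' (p.coeff i) * x ^ i)) hne
  have hcoef : ∀ i ∈ p.support, p.coeff i ≠ 0 := fun i hi => Polynomial.mem_support_iff.1 hi
  have hj0 : w (algebraMap L L' (p.coeff j) * x ^ j) ≠ 0 :=
    (Valuation.ne_zero_iff _).2 (mul_ne_zero (by simpa using hcoef j hj) (pow_ne_zero _ hx0))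
  by_cases hall : ∀ i ∈ p.support \ {j}, w (algebraMap L L' (p.coeff i) * x ^ i) <
      w (algebraMap L L' (p.coeff j) * x ^ j)
  · have := w.map_sum_eq_of_lt hj hall
    rw [hp, map_zero] at this
    exact absurd this.symm hj0
  · push Not at hall
    obtain ⟨i, hi, hle⟩ := hall
    obtain ⟨hi1, hi2⟩ := Finset.mem_sdiff.1 hi
    have hij : i ≠ j := fun e => hi2 (Finset.mem_singleton.2 e)
    have heq := le_antisymm (hmax i hi1) hle
    rcases lt_or_gt_of_ne hij with h | h
    · exact v0b_pow_of_eq w hx0 (hcoef i hi1) (hcoef j hj) h heq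
    · exact v0b_pow_of_eq w hx0 (hcoef j hj) (hcoef i hi1) h heq.symm

/-- a strictly monotone homomorphism of the units, extended by zero -/
noncomputable def v0b_ext0 {Γ₀ : Type} [LinearOrderedCommGroupWithZero Γ₀] (f : Γ₀ˣ →* Multiplicative ℚ) :
    Γ₀ →*₀ ℚᵐ⁰ := by
  classical
  exact
  { toFun := fun x => if h : x = 0 then 0 else ((f (Units.mk0 x h) : Multiplicative ℚ) : ℚᵐ⁰)
    map_zero' := dif_pos rfl
    map_one' := by
      rw [dif_neg one_ne_zero, Units.mk0_one, map_one, WithZero.coe_one]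
    map_mul' := fun x y => by
      by_cases hx : x = 0
      · simp [hx]
      by_cases hy : y = 0
      · simp [hy]
      rw [dif_neg hx, dif_neg hy, dif_neg (mul_ne_zero hx hy), Units.mk0_mul, map_mul, WithZero.coe_mul] }

theorem v0b_ext0_apply {Γ₀ : Type} [LinearOrderedCommGroupWithZero Γ₀] (f : Γ₀ˣ →* Multiplicative ℚ)
    (u : Γ₀ˣ) : v0b_ext0 f (u : Γ₀) = ((f u : Multiplicative ℚ) : ℚᵐ⁰) := by
  show (if h : (u : Γ₀) = 0 then 0 else ((f (Units.mk0 (u : Γ₀) h) : Multiplicative ℚ) : ℚᵐ⁰)) = _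
  rw [dif_neg u.ne_zero, Units.mk0_val]

theorem v0b_ext0_mono {Γ₀ : Type} [LinearOrderedCommGroupWithZero Γ₀] {f : Γ₀ˣ →* Multiplicative ℚ}
    (hf : StrictMono f) : Monotone (v0b_ext0 f) := by
  intro x y hxy
  by_cases hx : x = 0
  · rw [hx, map_zero]; exact zero_le
  have hy : y ≠ 0 := fun h => hx (le_antisymm (h ▸ hxy) zero_le)
  have e1 := v0b_ext0_apply f (Units.mk0 x hx)
  have e2 := v0b_ext0_apply f (Units.mk0 y hy)
  rw [Units.val_mk0] at e1 e2
  rw [e1, e2, WithZero.coe_le_coe]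
  exact hf.monotone (by rw [← Units.val_le_val]; exact hxy)

/-- transfer of the values along an equivalence on the base field -/
theorem v0b_transfer {L L' Γ₀ : Type} [Field L] [Field L'] [Algebra L L'] [Algebra.IsAlgebraic L L']
    [LinearOrderedCommGroupWithZero Γ₀] (v : Valuation L ℚᵐ⁰) (w : Valuation L' Γ₀)
    (hsurj : Function.Surjective w) (hcomp : ∀ a : L, w (algebraMap L L' a) ≤ 1 ↔ v a ≤ 1) :
    ∃ v' : Valuation L' ℚᵐ⁰, ValExt v' v := by
  let φ : Lˣ →* Γ₀ˣ := Units.map ((w : L' →* Γ₀).comp (algebraMap L L' : L →* L'))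
  let ψ : Lˣ →* Multiplicative ℚ := (unitsWithZeroEquiv (α := Multiplicative ℚ)).toMonoidHom.comp
    (Units.map (v : L →* ℚᵐ⁰))
  have hφ : ∀ a : Lˣ, ((φ a : Γ₀ˣ) : Γ₀) = w (algebraMap L L' a) := fun a => rfl
  have hψ : ∀ a : Lˣ, ((ψ a : Multiplicative ℚ) : ℚᵐ⁰) = v a := fun a =>
    coe_unitsWithZeroEquiv_eq_units_val _
  have h1 : ∀ a : Lˣ, φ a ≤ 1 ↔ ψ a ≤ 1 := by
    intro a
    rw [← Units.val_le_val, hφ, Units.val_one, hcomp, ← hψ, ← WithZero.coe_one, WithZero.coe_le_coe]
  have hle : ∀ a b : Lˣ, φ a ≤ φ b ↔ ψ a ≤ ψ b := by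
    intro a b
    rw [← div_le_one', ← map_div, h1, map_div, div_le_one']
  have hlt : ∀ a b : Lˣ, φ a < φ b ↔ ψ a < ψ b := by
    intro a b
    rw [← not_le, ← not_le, hle]
  have hker : φ.rangeRestrict.ker ≤ ψ.ker := by
    intro a ha
    have ha' : φ a = 1 := by
      have := MonoidHom.mem_ker.1 ha
      exact congrArg Subtype.val this
    rw [MonoidHom.mem_ker]
    have e1 : φ a ≤ φ 1 := by rw [ha', map_one]
    have e2 : φ 1 ≤ φ a := by rw [ha', map_one]
    have := le_antisymm ((hle _ _).1 e1) ((hle _ _).1 e2)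
    rw [this, map_one]
  let f : φ.range →* Multiplicative ℚ := φ.rangeRestrict.liftOfRightInverse
    (Function.surjInv φ.rangeRestrict_surjective) (Function.rightInverse_surjInv _) ⟨ψ, hker⟩
  have hf : ∀ a : Lˣ, f (φ.rangeRestrict a) = ψ a := fun a =>
    MonoidHom.liftOfRightInverse_comp_apply _ _ _ ⟨ψ, hker⟩ a
  have hfm : StrictMono f := by
    intro γ1 γ2 h12
    obtain ⟨a1, rfl⟩ := φ.rangeRestrict_surjective γ1
    obtain ⟨a2, rfl⟩ := φ.rangeRestrict_surjective γ2
    rw [hf, hf, ← hlt]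
    exact h12
  have htors : ∀ γ : Γ₀ˣ, ∃ n : ℕ, 0 < n ∧ γ ^ n ∈ φ.range := by
    intro γ
    obtain ⟨x, hx⟩ := hsurj (γ : Γ₀)
    have hx0 : x ≠ 0 := by
      rintro rfl
      rw [map_zero] at hx
      exact γ.ne_zero hx.symm
    obtain ⟨n, a, hn, ha, e⟩ := exists_pow_valuation_eq w (Algebra.IsAlgebraic.isAlgebraic (R := L) x) hx0
    refine ⟨n, hn, Units.mk0 a ha, Units.ext ?_⟩
    rw [hφ, Units.val_mk0, ← e, Units.val_pow_eq_pow_val, ← hx, map_pow]
  obtain ⟨f', hf'm, hf'⟩ := exists_extend_orderHom φ.range htors f hfm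
  refine ⟨w.map (v0b_ext0 f') (v0b_ext0_mono hf'm), fun a => ?_⟩
  rw [Valuation.map_apply]
  by_cases ha : a = 0
  · rw [ha, map_zero, map_zero, map_zero, map_zero]
  · have e1 := v0b_ext0_apply f' (φ (Units.mk0 a ha))
    rw [hφ, Units.val_mk0] at e1
    rw [e1]
    have e2 := hf' (φ.rangeRestrict (Units.mk0 a ha))
    rw [hf] at e2
    have e3 : f' (φ (Units.mk0 a ha)) = ψ (Units.mk0 a ha) := e2
    rw [e3, hψ, Units.val_mk0]

theorem exists_valExt_val {L : Type} [Field L] (v : Valuation L ℚᵐ⁰) (L' : Type) [Field L']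
    [Algebra L L'] [Algebra.IsAlgebraic L L'] : ∃ v' : Valuation L' ℚᵐ⁰, ValExt v' v := by
  obtain ⟨A, hA, hloc⟩ := IsLocalRing.exists_factor_valuationRing
    ((algebraMap L L').comp v.valuationSubring.subtype)
  refine v0b_transfer v A.valuation A.valuation_surjective fun a => ?_
  rw [ValuationSubring.valuation_le_one_iff]
  constructor
  · intro ha
    by_contra hva
    rw [not_le] at hva
    have ha0 : a ≠ 0 := by
      rintro rfl
      rw [map_zero] at hva
      exact absurd hva (not_lt.2 zero_le)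
    have hinv : v a⁻¹ < 1 := by
      rw [map_inv₀]
      exact inv_lt_one_of_one_lt₀ hva
    let b : v.valuationSubring := ⟨a⁻¹, (Valuation.mem_valuationSubring_iff _ _).2 hinv.le⟩
    have hu : IsUnit ((((algebraMap L L').comp v.valuationSubring.subtype).codRestrict A.toSubring hA) b) := by
      refine IsUnit.of_mul_eq_one (⟨algebraMap L L' a, ha⟩ : A.toSubring) (Subtype.ext ?_)
      show algebraMap L L' a⁻¹ * algebraMap L L' a = 1
      rw [← map_mul, inv_mul_cancel₀ ha0, map_one]
    obtain ⟨u, hu'⟩ := hloc.map_nonunit b hu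
    have h1 : v ((u : v.valuationSubring) : L) ≤ 1 := (Valuation.mem_valuationSubring_iff _ _).1 (u : v.valuationSubring).2
    have h2 : v (((u⁻¹ : (v.valuationSubring)ˣ) : v.valuationSubring) : L) ≤ 1 :=
      (Valuation.mem_valuationSubring_iff _ _).1 ((u⁻¹ : (v.valuationSubring)ˣ) : v.valuationSubring).2
    have h3 : ((u : v.valuationSubring) : L) * (((u⁻¹ : (v.valuationSubring)ˣ) : v.valuationSubring) : L) = 1 := by
      have := congrArg Subtype.val (u.mul_inv)
      exact this
    have h4 : v ((u : v.valuationSubring) : L) * v (((u⁻¹ : (v.valuationSubring)ˣ) : v.valuationSubring) : L) = 1 := by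
      rw [← map_mul, h3, map_one]
    have h5 : ((u : v.valuationSubring) : L) = a⁻¹ := congrArg Subtype.val hu'
    rw [h5] at h4
    have h6 : v a⁻¹ * v (((u⁻¹ : (v.valuationSubring)ˣ) : v.valuationSubring) : L) < 1 :=
      mul_lt_one_of_lt_of_le hinv h2
    exact absurd h4 h6.ne
  · intro ha
    exact hA ⟨a, (Valuation.mem_valuationSubring_iff _ _).2 ha⟩

/-! ### Val0c -/

theorem val0c_res_eq {K : Type} [Field K] {v : Valuation K ℚᵐ⁰} {k : Type} [Field k] (r : ResMap v k) {x : K}
    (h : v x ≤ 1) : r.res x = r.toHom ⟨x, (Valuation.mem_valuationSubring_iff v x).2 h⟩ := by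
  rw [ResMap.res, dif_pos h]

/-- the map of valuation rings `O_v → O_v'` -/
def val0c_mapO {L L' : Type} [Field L] [Field L'] [Algebra L L'] {v : Valuation L ℚᵐ⁰}
    {v' : Valuation L' ℚᵐ⁰} (h : ValExt v' v) : v.valuationSubring →+* v'.valuationSubring :=
  ((algebraMap L L').comp v.valuationSubring.subtype).codRestrict v'.valuationSubring.toSubring fun x => by
    have hx : v (x : L) ≤ 1 := (Valuation.mem_valuationSubring_iff v _).1 x.2
    show algebraMap L L' (x : L) ∈ v'.valuationSubring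
    rw [Valuation.mem_valuationSubring_iff, h]
    exact hx

theorem val0c_coe_mapO {L L' : Type} [Field L] [Field L'] [Algebra L L'] {v : Valuation L ℚᵐ⁰}
    {v' : Valuation L' ℚᵐ⁰} (h : ValExt v' v) (x : v.valuationSubring) :
    ((val0c_mapO h x : v'.valuationSubring) : L') = algebraMap L L' (x : L) := rfl

/-- the canonical residue map onto the residue field of the valuation ring -/
noncomputable def val0c_canon {U : Type} [Field U] (w : Valuation U ℚᵐ⁰) :
    ResMap w (IsLocalRing.ResidueField w.valuationSubring) where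
  toHom := IsLocalRing.residue _
  surj := IsLocalRing.residue_surjective
  ker := fun x => by
    rw [IsLocalRing.residue_eq_zero_iff, IsLocalRing.mem_maximalIdeal, mem_nonunits_iff]
    have hx : w (x : U) ≤ 1 := (Valuation.mem_valuationSubring_iff w _).1 x.2
    constructor
    · intro hu
      refine lt_of_le_of_ne hx fun h1 => hu ?_
      have hx0 : (x : U) ≠ 0 := by
        intro h0
        rw [h0, map_zero] at h1
        exact zero_ne_one h1
      have hinv : (x : U)⁻¹ ∈ w.valuationSubring := by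
        rw [Valuation.mem_valuationSubring_iff, map_inv₀, h1, inv_one]
      exact IsUnit.of_mul_eq_one (⟨(x : U)⁻¹, hinv⟩ : w.valuationSubring) (Subtype.ext (mul_inv_cancel₀ hx0))
    · intro hlt hu
      obtain ⟨y, hy⟩ := hu.exists_right_inv
      have hy1 : w (y : U) ≤ 1 := (Valuation.mem_valuationSubring_iff w _).1 y.2
      have h1 : w ((x : U) * (y : U)) = 1 := by
        have : (x : U) * (y : U) = 1 := congrArg Subtype.val hy
        rw [this, map_one]
      rw [map_mul] at h1
      have : w (x : U) * w (y : U) < 1 := by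
        calc w (x : U) * w (y : U) ≤ w (x : U) * 1 := by gcongr
          _ < 1 := by rwa [mul_one]
      exact absurd h1 this.ne

/-- a ring homomorphism out of the valuation ring that kills the maximal ideal factors through a residue map -/
noncomputable def val0c_lift {T : Type} [Field T] {v : Valuation T ℚᵐ⁰} {k : Type} [Field k] (r : ResMap v k)
    {B : Type} [CommRing B] (f : v.valuationSubring →+* B)
    (hf : ∀ x : v.valuationSubring, v (x : T) < 1 → f x = 0) : k →+* B :=
  (Ideal.Quotient.lift (RingHom.ker r.toHom) f fun x hx => hf x ((r.ker x).1 hx)).comp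
    (RingHom.quotientKerEquivOfSurjective r.surj).symm.toRingHom

theorem val0c_lift_toHom {T : Type} [Field T] {v : Valuation T ℚᵐ⁰} {k : Type} [Field k] (r : ResMap v k)
    {B : Type} [CommRing B] (f : v.valuationSubring →+* B)
    (hf : ∀ x : v.valuationSubring, v (x : T) < 1 → f x = 0)
    (x : v.valuationSubring) : val0c_lift r f hf (r.toHom x) = f x := by
  have h : (RingHom.quotientKerEquivOfSurjective r.surj).symm (r.toHom x) =
      Ideal.Quotient.mk (RingHom.ker r.toHom) x := by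
    rw [RingEquiv.symm_apply_eq]
    rfl
  simp only [val0c_lift, RingHom.comp_apply, RingEquiv.toRingHom_eq_coe, RingHom.coe_coe, h,
    Ideal.Quotient.lift_mk]

/-- every prolongation has a residue map compatible with a given one -/
theorem exists_resExt {L F L' : Type} [Field L] [Field F] [Field L'] [Algebra L L']
    {v : Valuation L ℚᵐ⁰} (r : ResMap v F) {v' : Valuation L' ℚᵐ⁰} (h : ValExt v' v) :
    ∃ (F' : Type) (_ : Field F') (_ : Algebra F F') (r' : ResMap v' F'), ResExt r' r := by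
  have hkill : ∀ x : v.valuationSubring, v (x : L) < 1 →
      ((val0c_canon v').toHom.comp (val0c_mapO h)) x = 0 := by
    intro x hx
    rw [RingHom.comp_apply, (val0c_canon v').ker, val0c_coe_mapO, h]
    exact hx
  refine ⟨IsLocalRing.ResidueField v'.valuationSubring, inferInstance,
    (val0c_lift r ((val0c_canon v').toHom.comp (val0c_mapO h)) hkill).toAlgebra, val0c_canon v', ?_⟩
  intro a ha
  have h1 : v' (algebraMap L L' a) ≤ 1 := by
    rw [h]
    exact ha
  rw [val0c_res_eq _ ha, val0c_res_eq _ h1]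
  show _ = val0c_lift r ((val0c_canon v').toHom.comp (val0c_mapO h)) hkill _
  rw [val0c_lift_toHom]
  rfl

theorem exists_valExt {L F : Type} [Field L] [Field F] (v : Valuation L ℚᵐ⁰) (r : ResMap v F)
    (L' : Type) [Field L'] [Algebra L L'] [Algebra.IsAlgebraic L L'] :
    ∃ (v' : Valuation L' ℚᵐ⁰) (F' : Type) (_ : Field F') (_ : Algebra F F') (r' : ResMap v' F'),
      ValExt v' v ∧ ResExt r' r := by
  obtain ⟨v', hv'⟩ := exists_valExt_val v L'
  obtain ⟨F', i1, i2, r', hr'⟩ := exists_resExt r hv'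
  exact ⟨v', F', i1, i2, r', hv', hr'⟩

/-- residue fields of algebraic extensions are algebraic -/
theorem ResExt.isAlgebraic {L F L' F' : Type} [Field L] [Field F] [Field L'] [Field F']
    [Algebra L L'] [Algebra F F'] [Algebra.IsAlgebraic L L'] {v : Valuation L ℚᵐ⁰}
    {v' : Valuation L' ℚᵐ⁰} {r : ResMap v F} {r' : ResMap v' F'} (h : ValExt v' v)
    (hr : ResExt r' r) : Algebra.IsAlgebraic F F' := by
  refine ⟨fun y => ?_⟩
  obtain ⟨x, rfl⟩ := r'.surj y
  obtain ⟨p, hp0, hpx⟩ := Algebra.IsAlgebraic.isAlgebraic (R := L) (x : L')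
  -- a coefficient of maximal value
  have hne : p.support.Nonempty := by
    rw [Finset.nonempty_iff_ne_empty, Ne, Polynomial.support_eq_empty]
    exact hp0
  obtain ⟨j, hj, hmax⟩ := Finset.exists_max_image p.support (fun i => v (p.coeff i)) hne
  have haj : p.coeff j ≠ 0 := Polynomial.mem_support_iff.1 hj
  have hvj : v (p.coeff j) ≠ 0 := (Valuation.ne_zero_iff v).2 haj
  have hle : ∀ i, v (p.coeff i) ≤ v (p.coeff j) := by
    intro i
    by_cases hi : i ∈ p.support
    · exact hmax i hi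
    · rw [Polynomial.notMem_support_iff.1 hi, map_zero]
      exact zero_le
  -- normalised coefficients
  let c : ℕ → L := fun i => (p.coeff j)⁻¹ * p.coeff i
  have hc : ∀ i, v (c i) ≤ 1 := by
    intro i
    show v ((p.coeff j)⁻¹ * p.coeff i) ≤ 1
    rw [map_mul, map_inv₀, inv_mul_le_iff₀ (zero_lt_iff.2 hvj), mul_one]
    exact hle i
  have hc' : ∀ i, v' (algebraMap L L' (c i)) ≤ 1 := fun i => by
    rw [h]
    exact hc i
  have hcj : c j = 1 := inv_mul_cancel₀ haj
  have hjd : j ∈ Finset.range (p.natDegree + 1) :=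
    Finset.mem_range.2 (Nat.lt_succ_of_le (Polynomial.le_natDegree_of_mem_supp j hj))
  refine ⟨∑ i ∈ Finset.range (p.natDegree + 1), Polynomial.monomial i (r.res (c i)), ?_, ?_⟩
  · intro h0
    have h1 := congrArg (fun q : Polynomial F => q.coeff j) h0
    simp only [Polynomial.finsetSum_coeff, Polynomial.coeff_monomial, Polynomial.coeff_zero] at h1
    rw [Finset.sum_ite_eq' _ j, if_pos hjd, hcj, val0c_res_eq r (by rw [map_one])] at h1
    have h2 : (⟨1, (Valuation.mem_valuationSubring_iff v 1).2 (by rw [map_one])⟩ : v.valuationSubring) = 1 := rfl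
    rw [h2, map_one] at h1
    exact one_ne_zero h1
  · rw [map_sum]
    have hterm : ∀ i ∈ Finset.range (p.natDegree + 1),
        Polynomial.aeval (r'.toHom x) (Polynomial.monomial i (r.res (c i)))
          = r'.toHom ((⟨algebraMap L L' (c i), (Valuation.mem_valuationSubring_iff v' _).2 (hc' i)⟩ :
              v'.valuationSubring) * x ^ i) := by
      intro i _
      rw [Polynomial.aeval_monomial, ← hr (c i) (hc i), val0c_res_eq r' (hc' i), map_mul r'.toHom, map_pow]
    rw [Finset.sum_congr rfl hterm, ← map_sum]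
    have hz : ∑ i ∈ Finset.range (p.natDegree + 1),
        ((⟨algebraMap L L' (c i), (Valuation.mem_valuationSubring_iff v' _).2 (hc' i)⟩ :
              v'.valuationSubring) * x ^ i) = 0 := by
      apply Subtype.ext
      rw [Polynomial.aeval_eq_sum_range] at hpx
      push_cast
      show ∑ i ∈ Finset.range (p.natDegree + 1), algebraMap L L' ((p.coeff j)⁻¹ * p.coeff i) * (x : L') ^ i = 0
      have : ∀ i ∈ Finset.range (p.natDegree + 1),
          algebraMap L L' ((p.coeff j)⁻¹ * p.coeff i) * (x : L') ^ i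
            = algebraMap L L' (p.coeff j)⁻¹ * (p.coeff i • (x : L') ^ i) := by
        intro i _
        rw [map_mul, Algebra.smul_def, mul_assoc]
      rw [Finset.sum_congr rfl this, ← Finset.mul_sum, hpx, mul_zero]
    rw [hz, map_zero]

end Claimed.Agent.R280
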