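import Claimed.Agent.R280.Val.V0Ext

/-!
# Row 280, package Val1 (`Val/V1Full.lean`, ~750 lines): from a discrete value group to the value group `ℚ`, same residue field

[V] proof of Prop. 6.2, "Construction of `K_s`", first paragraph.  `Lb := AlgebraicClosure L` with a prolongation `vb` (`exists_valExt_val`); `θ 0 = ϖ`, `θ (j+1) ^ (j+1) = θ j`
(recursion, `IsAlgClosed.exists_pow_nat_eq`), so `θ j ^ j! = ϖ`; `L' := IntermediateField.adjoin L (Set.range θ) = ⋃ L(θ j)` (increasing union).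

* Val1a (~350 lines) `root_layer`: one layer.  `θ ^ r = ϖ`, `x = ∑_{i<r} a_i θ ^ i`.  The values `vb (a_i θ ^ i) = v ϖ ^ (n_i + i / r)` of the nonzero terms are pairwise distinct, so `vb x = max`;
  if `vb x = 1` the maximum is attained at `i = 0` only, so `vb (x - a_0) < 1`.  Every element of `L(θ)` has this form (`IntermediateField.adjoin_simple…`, `Polynomial.modByMonic` by `X ^ r - C ϖ`).
* Val1b (~400 lines) `exists_full`: `v' := vb` restricted to `L'`; surjective: `v ϖ = exp (-q)`, `q > 0`; for `s ∈ ℚ` write `s / q = m / j!`…, `v' (θ j ^ m) = exp (- q m / j!)`; residue map: `O_{L'} → F`, `x ↦ r.res a_0`, i.e. the inverse of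
  the bijection `O_v / 𝔪_v → O_{v'} / 𝔪_{v'}` (onto by `root_layer`).

Owner of the statements: helper129 / helper256.
-/

set_option autoImplicit false

namespace Claimed.Agent.R280

open WithZero

/-! ### Val1a -/

/-- elements of `L(θ)`, `θ ^ r = ϖ`, are `L`-combinations of `1, θ, …, θ ^ (r-1)` -/
theorem val1_repr {L Lb : Type} [Field L] [Field Lb] [Algebra L Lb] {ϖ : L} {r : ℕ} (hr : 0 < r) {θ : Lb}
    (hθ : θ ^ r = algebraMap L Lb ϖ) {x : Lb} (hx : x ∈ IntermediateField.adjoin L {θ}) :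
    ∃ c : ℕ → L, x = ∑ i ∈ Finset.range r, algebraMap L Lb (c i) * θ ^ i := by
  have hroot : Polynomial.aeval θ (Polynomial.X ^ r - Polynomial.C ϖ : Polynomial L) = 0 := by
    simp [hθ]
  have hmonic : (Polynomial.X ^ r - Polynomial.C ϖ : Polynomial L).Monic :=
    Polynomial.monic_X_pow_sub_C ϖ hr.ne'
  have halg : IsAlgebraic L θ := ⟨_, hmonic.ne_zero, hroot⟩
  have hx' : x ∈ (IntermediateField.adjoin L {θ}).toSubalgebra := hx
  rw [IntermediateField.adjoin_simple_toSubalgebra_of_isAlgebraic halg,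
    Algebra.adjoin_singleton_eq_range_aeval] at hx'
  obtain ⟨P, rfl⟩ := hx'
  refine ⟨fun i => (P %ₘ (Polynomial.X ^ r - Polynomial.C ϖ)).coeff i, ?_⟩
  have hdeg : (P %ₘ (Polynomial.X ^ r - Polynomial.C ϖ)).natDegree < r := by
    have h1 : (Polynomial.X ^ r - Polynomial.C ϖ : Polynomial L) ≠ 1 := by
      intro h
      have h2 := congrArg Polynomial.natDegree h
      rw [Polynomial.natDegree_X_pow_sub_C, Polynomial.natDegree_one] at h2
      omega
    have h3 := Polynomial.natDegree_modByMonic_lt P hmonic h1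
    rwa [Polynomial.natDegree_X_pow_sub_C] at h3
  show Polynomial.aeval θ P = _
  rw [← Polynomial.aeval_modByMonic_eq_self_of_root hroot, Polynomial.aeval_eq_sum_range' hdeg]
  refine Finset.sum_congr rfl fun i _ => ?_
  rw [Algebra.smul_def]

/-- the value of a monomial is an integral power of `vb θ` -/
theorem val1_term_val {L Lb : Type} [Field L] [Field Lb] [Algebra L Lb] (v : Valuation L ℚᵐ⁰)
    (vb : Valuation Lb ℚᵐ⁰) (hvb : ValExt vb v) {ϖ : L} (h0 : ϖ ≠ 0)
    (hd : ∀ a : L, a ≠ 0 → ∃ j : ℤ, v a = v ϖ ^ j) {r : ℕ} (hr : 0 < r) {θ : Lb}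
    (hθ : θ ^ r = algebraMap L Lb ϖ) (a : L) (ha : a ≠ 0) (i : ℕ) :
    ∃ j : ℤ, vb (algebraMap L Lb a * θ ^ i) = vb θ ^ ((i : ℤ) + (r : ℤ) * j) := by
  obtain ⟨j, hj⟩ := hd a ha
  refine ⟨j, ?_⟩
  have hg : vb θ ^ r = v ϖ := by rw [← map_pow, hθ, hvb]
  have hϖ0 : v ϖ ≠ 0 := (Valuation.ne_zero_iff v).2 h0
  have hg0 : vb θ ≠ 0 := by
    intro h
    rw [h, zero_pow hr.ne'] at hg
    exact hϖ0 hg.symm
  rw [map_mul, hvb, hj, map_pow, ← hg, zpow_add₀ hg0, zpow_mul, zpow_natCast, zpow_natCast, mul_comm]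

/-- `i + r j = i' + r j'`, `0 ≤ i, i' < r` implies `i = i'` -/
theorem val1_mod_unique {r i i' : ℕ} {j j' : ℤ} (hi : i < r) (hi' : i' < r)
    (h : (i : ℤ) + (r : ℤ) * j = (i' : ℤ) + (r : ℤ) * j') : i = i' := by
  have e := congrArg (fun z : ℤ => z % (r : ℤ)) h
  simp only [Int.add_mul_emod_self_left] at e
  rw [Int.emod_eq_of_lt (by positivity) (by exact_mod_cast hi),
    Int.emod_eq_of_lt (by positivity) (by exact_mod_cast hi')] at e
  exact_mod_cast e

/-- one totally ramified layer: elements of `L(θ)`, `θ ^ r = ϖ`, are close to elements of `L` times a power of `θ` -/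
theorem root_layer {L Lb : Type} [Field L] [Field Lb] [Algebra L Lb] (v : Valuation L ℚᵐ⁰)
    (vb : Valuation Lb ℚᵐ⁰) (hvb : ValExt vb v) {ϖ : L} (h1 : v ϖ < 1) (h0 : ϖ ≠ 0)
    (hd : ∀ a : L, a ≠ 0 → ∃ j : ℤ, v a = v ϖ ^ j) {r : ℕ} (hr : 0 < r) {θ : Lb}
    (hθ : θ ^ r = algebraMap L Lb ϖ) {x : Lb} (hx : x ∈ IntermediateField.adjoin L {θ})
    (hx0 : x ≠ 0) :
    ∃ (a : L) (i : ℕ), i < r ∧ vb (x - algebraMap L Lb a * θ ^ i) < vb x := by
  classical
  obtain ⟨c, hc⟩ := val1_repr hr hθ hx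
  have hg : vb θ ^ r = v ϖ := by rw [← map_pow, hθ, hvb]
  have hϖ0 : v ϖ ≠ 0 := (Valuation.ne_zero_iff v).2 h0
  have hg0 : vb θ ≠ 0 := by
    intro h
    rw [h, zero_pow hr.ne'] at hg
    exact hϖ0 hg.symm
  have hg1 : vb θ ≠ 1 := by
    intro h
    rw [h, one_pow] at hg
    exact h1.ne hg.symm
  have hθ0 : θ ≠ 0 := (Valuation.ne_zero_iff vb).1 hg0
  have hne : ((Finset.range r).filter (fun i => c i ≠ 0)).Nonempty := by
    by_contra hemp
    rw [Finset.not_nonempty_iff_eq_empty, Finset.filter_eq_empty_iff] at hemp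
    apply hx0
    rw [hc]
    refine Finset.sum_eq_zero fun i hi => ?_
    have h2 : c i = 0 := by
      by_contra h3
      exact hemp hi h3
    rw [h2, map_zero, zero_mul]
  obtain ⟨i0, hi0, hmax⟩ := Finset.exists_max_image _
    (fun i => vb (algebraMap L Lb (c i) * θ ^ i)) hne
  rw [Finset.mem_filter] at hi0
  have ht0 : vb (algebraMap L Lb (c i0) * θ ^ i0) ≠ 0 :=
    (Valuation.ne_zero_iff vb).2
      (mul_ne_zero ((map_ne_zero (algebraMap L Lb)).2 hi0.2) (pow_ne_zero _ hθ0))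
  have hlt : ∀ i ∈ (Finset.range r).erase i0,
      vb (algebraMap L Lb (c i) * θ ^ i) < vb (algebraMap L Lb (c i0) * θ ^ i0) := by
    intro i hi
    rw [Finset.mem_erase] at hi
    by_cases hci : c i = 0
    · rw [hci, map_zero, zero_mul, map_zero]
      exact zero_lt_iff.2 ht0
    · refine lt_of_le_of_ne (hmax i (Finset.mem_filter.2 ⟨hi.2, hci⟩)) ?_
      intro heq
      obtain ⟨j, hj⟩ := val1_term_val v vb hvb h0 hd hr hθ (c i) hci i
      obtain ⟨j0, hj0⟩ := val1_term_val v vb hvb h0 hd hr hθ (c i0) hi0.2 i0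
      rw [hj, hj0] at heq
      have h5 := zpow_right_injective₀ (zero_lt_iff.2 hg0) hg1 heq
      exact hi.1 (val1_mod_unique (Finset.mem_range.1 hi.2) (Finset.mem_range.1 hi0.1) h5)
  have hsum : x - algebraMap L Lb (c i0) * θ ^ i0
      = ∑ i ∈ (Finset.range r).erase i0, algebraMap L Lb (c i) * θ ^ i := by
    rw [Finset.sum_erase_eq_sub hi0.1, ← hc]
  have h2 : vb (x - algebraMap L Lb (c i0) * θ ^ i0) < vb (algebraMap L Lb (c i0) * θ ^ i0) := by
    rw [hsum]
    exact Valuation.map_sum_lt vb ht0 hlt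
  have h3 : vb x = vb (algebraMap L Lb (c i0) * θ ^ i0) := by
    have h4 := Valuation.map_add_eq_of_lt_right vb h2
    rwa [sub_add_cancel] at h4
  exact ⟨c i0, i0, Finset.mem_range.1 hi0.1, by rw [h3]; exact h2⟩

/-! ### Val1b -/

/-- a compatible system of roots -/
theorem val1_tower {Lb : Type} [Field Lb] [IsAlgClosed Lb] (b : Lb) :
    ∃ θ : ℕ → Lb, θ 0 = b ∧ ∀ j, θ (j + 1) ^ (j + 1) = θ j := by
  classical
  let θ : ℕ → Lb := fun n => Nat.rec b
    (fun j y => Classical.choose (IsAlgClosed.exists_pow_nat_eq y (Nat.succ_pos j))) n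
  refine ⟨θ, rfl, fun j => ?_⟩
  exact Classical.choose_spec (IsAlgClosed.exists_pow_nat_eq (θ j) (Nat.succ_pos j))

theorem val1_tower_factorial {Lb : Type} [Field Lb] {b : Lb} {θ : ℕ → Lb} (h0 : θ 0 = b)
    (hs : ∀ j, θ (j + 1) ^ (j + 1) = θ j) (j : ℕ) : θ j ^ j.factorial = b := by
  induction j with
  | zero => simpa using h0
  | succ j ih => rw [Nat.factorial_succ, pow_mul, hs, ih]

/-- the union of the layers -/
theorem val1_mem_layer {L Lb : Type} [Field L] [Field Lb] [Algebra L Lb] {θ : ℕ → Lb}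
    (hs : ∀ j, θ (j + 1) ^ (j + 1) = θ j) {x : Lb} (hx : x ∈ IntermediateField.adjoin L (Set.range θ)) :
    ∃ j, x ∈ IntermediateField.adjoin L {θ j} := by
  have hmono : Monotone (fun j => IntermediateField.adjoin L {θ j}) := by
    refine monotone_nat_of_le_succ fun j => ?_
    rw [IntermediateField.adjoin_simple_le_iff, ← hs j]
    exact pow_mem (IntermediateField.mem_adjoin_simple_self L _) _
  have hle : IntermediateField.adjoin L (Set.range θ) ≤ ⨆ j, IntermediateField.adjoin L {θ j} := by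
    rw [IntermediateField.adjoin_le_iff]
    rintro _ ⟨j, rfl⟩
    exact (le_iSup (fun j => IntermediateField.adjoin L {θ j}) j)
      (IntermediateField.mem_adjoin_simple_self L _)
  have h1 : x ∈ ((⨆ j, IntermediateField.adjoin L {θ j} : IntermediateField L Lb) : Set Lb) := hle hx
  rw [IntermediateField.coe_iSup_of_directed hmono.directed_le, Set.mem_iUnion] at h1
  exact h1

/-- all values are attained on the powers of the `θ j` -/
theorem val1_surj {Lb : Type} [Field Lb] (vb : Valuation Lb ℚᵐ⁰) {g : ℚᵐ⁰} (hg0 : g ≠ 0) (hg1 : g ≠ 1)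
    {θ : ℕ → Lb} (hθ : ∀ j, vb (θ j) ^ j.factorial = g) {γ : ℚᵐ⁰} (hγ : γ ≠ 0) :
    ∃ (j : ℕ) (m : ℤ), vb (θ j ^ m) = γ := by
  have hq : g.log ≠ 0 := by
    intro h
    apply hg1
    rw [← exp_log hg0, h, exp_zero]
  set t : ℚ := γ.log / g.log with ht
  have hB : 0 < t.den := t.den_pos
  obtain ⟨K, hK⟩ := Nat.dvd_factorial hB le_rfl
  refine ⟨t.den, t.num * K, ?_⟩
  have hv0 : vb (θ t.den) ≠ 0 := by
    intro h
    have h2 := hθ t.den
    rw [h, zero_pow (Nat.factorial_ne_zero _)] at h2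
    exact hg0 h2.symm
  have hlog : (t.den.factorial : ℚ) * (vb (θ t.den)).log = g.log := by
    have h2 := congrArg WithZero.log (hθ t.den)
    rw [log_pow, nsmul_eq_mul] at h2
    exact h2
  have hne : vb (θ t.den ^ (t.num * K)) ≠ 0 := by
    rw [map_zpow₀]
    exact zpow_ne_zero _ hv0
  rw [← exp_log hne, ← exp_log hγ]
  congr 1
  rw [map_zpow₀, log_zpow, zsmul_eq_mul]
  have hden : (t.den : ℚ) ≠ 0 := by exact_mod_cast hB.ne'
  have hK0 : (K : ℚ) ≠ 0 := by
    intro h
    have h3 : K = 0 := by exact_mod_cast h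
    rw [h3, mul_zero] at hK
    exact Nat.factorial_ne_zero _ hK
  have hfac : (t.den.factorial : ℚ) = (t.den : ℚ) * (K : ℚ) := by exact_mod_cast hK
  rw [hfac] at hlog
  have htq : (t.num : ℚ) = t * (t.den : ℚ) := by
    have := Rat.num_div_den t
    field_simp at this
    linarith
  have hγq : γ.log = t * g.log := by
    rw [ht]
    field_simp
  push_cast
  rw [hγq, ← hlog, htq]
  ring

/-- units of a layer are close to units of `L` -/
theorem val1_close {L Lb : Type} [Field L] [Field Lb] [Algebra L Lb] (v : Valuation L ℚᵐ⁰)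
    (vb : Valuation Lb ℚᵐ⁰) (hvb : ValExt vb v) {ϖ : L} (h1 : v ϖ < 1) (h0 : ϖ ≠ 0)
    (hd : ∀ a : L, a ≠ 0 → ∃ j : ℤ, v a = v ϖ ^ j) {r : ℕ} (hr : 0 < r) {θ : Lb}
    (hθ : θ ^ r = algebraMap L Lb ϖ) {x : Lb} (hx : x ∈ IntermediateField.adjoin L {θ})
    (hx1 : vb x = 1) : ∃ a : L, v a = 1 ∧ vb (x - algebraMap L Lb a) < 1 := by
  have hx0 : x ≠ 0 := by
    intro h
    rw [h, map_zero] at hx1
    exact zero_ne_one hx1
  obtain ⟨a, i, hi, hlt⟩ := root_layer v vb hvb h1 h0 hd hr hθ hx hx0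
  have hg : vb θ ^ r = v ϖ := by rw [← map_pow, hθ, hvb]
  have hϖ0 : v ϖ ≠ 0 := (Valuation.ne_zero_iff v).2 h0
  have hg0 : vb θ ≠ 0 := by
    intro h
    rw [h, zero_pow hr.ne'] at hg
    exact hϖ0 hg.symm
  have hg1 : vb θ ≠ 1 := by
    intro h
    rw [h, one_pow] at hg
    exact h1.ne hg.symm
  have ht : vb (algebraMap L Lb a * θ ^ i) = 1 := by
    have h2 := Valuation.map_sub_eq_of_lt_left vb hlt
    rw [sub_sub_cancel] at h2
    rw [h2, hx1]
  have ha : a ≠ 0 := by
    intro h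
    rw [h, map_zero, zero_mul, map_zero] at ht
    exact zero_ne_one ht
  obtain ⟨j, hj⟩ := val1_term_val v vb hvb h0 hd hr hθ a ha i
  rw [ht] at hj
  have h3 : vb θ ^ ((i : ℤ) + (r : ℤ) * j) = vb θ ^ (((0 : ℕ) : ℤ) + (r : ℤ) * 0) := by
    rw [← hj]
    simp
  have h4 := zpow_right_injective₀ (zero_lt_iff.2 hg0) hg1 h3
  have hi0 : i = 0 := val1_mod_unique hi hr h4
  subst hi0
  rw [pow_zero, mul_one] at ht hlt
  refine ⟨a, ?_, ?_⟩
  · rw [← hvb, ht]
  · rwa [hx1] at hlt

/-- from a discretely valued field to value group `ℚ`, same residue field -/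
theorem exists_full {L F : Type} [Field L] [Field F] (v : Valuation L ℚᵐ⁰) (r : ResMap v F)
    (hd : ∃ ϖ : L, v ϖ < 1 ∧ ϖ ≠ 0 ∧ ∀ a : L, a ≠ 0 → ∃ j : ℤ, v a = v ϖ ^ j) :
    ∃ (L' : Type) (_ : Field L') (_ : Algebra L L') (v' : Valuation L' ℚᵐ⁰) (r' : ResMap v' F),
      ValExt v' v ∧ ResExt r' r ∧ Function.Surjective v' ∧ Algebra.IsAlgebraic L L' := by
  classical
  obtain ⟨ϖ, h1, h0, hd⟩ := hd
  obtain ⟨vb, hvb⟩ := exists_valExt_val v (AlgebraicClosure L)
  obtain ⟨θ, hθ0, hθs⟩ := val1_tower (algebraMap L (AlgebraicClosure L) ϖ)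
  have hfact := val1_tower_factorial hθ0 hθs
  have hϖ0 : v ϖ ≠ 0 := (Valuation.ne_zero_iff v).2 h0
  let L' : IntermediateField L (AlgebraicClosure L) := IntermediateField.adjoin L (Set.range θ)
  let v' : Valuation L' ℚᵐ⁰ := vb.comap (algebraMap L' (AlgebraicClosure L))
  have hv' : ∀ x : L', v' x = vb (x : AlgebraicClosure L) := fun x => rfl
  have hext : ValExt v' v := by
    intro a
    rw [hv']
    exact hvb a
  -- surjectivity
  have hsurj : Function.Surjective v' := by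
    intro γ
    by_cases hγ : γ = 0
    · exact ⟨0, by rw [map_zero, hγ]⟩
    · obtain ⟨j, m, hjm⟩ := val1_surj vb hϖ0 h1.ne
        (fun j => by rw [← map_pow, hfact j, hvb]) hγ
      refine ⟨(⟨θ j, IntermediateField.subset_adjoin L _ ⟨j, rfl⟩⟩ : L') ^ m, ?_⟩
      rw [hv']
      exact hjm
  -- the residue field does not grow
  have hkill : ∀ x : v.valuationSubring, v (x : L) < 1 →
      ((val0c_canon v').toHom.comp (val0c_mapO hext)) x = 0 := by
    intro x hx
    rw [RingHom.comp_apply, (val0c_canon v').ker, val0c_coe_mapO, hext]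
    exact hx
  let φ : F →+* IsLocalRing.ResidueField v'.valuationSubring :=
    val0c_lift r ((val0c_canon v').toHom.comp (val0c_mapO hext)) hkill
  have hφ : ∀ a : v.valuationSubring, φ (r.toHom a) = (val0c_canon v').toHom (val0c_mapO hext a) :=
    fun a => val0c_lift_toHom r _ hkill a
  have hφs : Function.Surjective φ := by
    intro y
    obtain ⟨x, rfl⟩ := (val0c_canon v').surj y
    by_cases hx1 : v' (x : L') < 1
    · exact ⟨0, by rw [map_zero, ((val0c_canon v').ker x).2 hx1]⟩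
    · have hx2 : v' (x : L') = 1 :=
        le_antisymm ((Valuation.mem_valuationSubring_iff v' _).1 x.2) (not_lt.1 hx1)
      obtain ⟨j, hj⟩ := val1_mem_layer (L := L) hθs (x : L').2
      obtain ⟨a, ha1, ha2⟩ := val1_close v vb hvb h1 h0 hd (Nat.factorial_pos j) (hfact j) hj hx2
      refine ⟨r.toHom ⟨a, (Valuation.mem_valuationSubring_iff v a).2 ha1.le⟩, ?_⟩
      rw [hφ, ← sub_eq_zero, ← map_sub, (val0c_canon v').ker, hv']
      have h5 : (((val0c_mapO hext ⟨a, (Valuation.mem_valuationSubring_iff v a).2 ha1.le⟩ - x :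
          v'.valuationSubring) : L') : AlgebraicClosure L)
          = -(((x : L') : AlgebraicClosure L) - algebraMap L (AlgebraicClosure L) a) := by
        rw [neg_sub]
        rfl
      rw [h5, Valuation.map_neg]
      exact ha2
  let e : F ≃+* IsLocalRing.ResidueField v'.valuationSubring :=
    RingEquiv.ofBijective φ ⟨φ.injective, hφs⟩
  have he : ∀ z, e z = φ z := fun z => rfl
  let r' : ResMap v' F :=
    { toHom := (e.symm : IsLocalRing.ResidueField v'.valuationSubring →+* F).comp (val0c_canon v').toHom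
      surj := e.symm.surjective.comp (val0c_canon v').surj
      ker := fun x => by
        rw [RingHom.comp_apply, ← (val0c_canon v').ker x]
        exact map_eq_zero_iff e.symm e.symm.injective }
  refine ⟨L', inferInstance, inferInstance, v', r', hext, ?_, hsurj, inferInstance⟩
  intro a ha
  have ha' : v' (algebraMap L L' a) ≤ 1 := by
    rw [hext]
    exact ha
  rw [val0c_res_eq r ha, val0c_res_eq r' ha']
  show e.symm ((val0c_canon v').toHom _) = r.toHom _
  rw [RingEquiv.symm_apply_eq, he, hφ]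
  rfl

end Claimed.Agent.R280
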