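import Claimed.Agent.R280.Val.V0Ext

/-!
# Row 280, packages Val2a-Val2e (`Val/V2Amb.lean`): a spherically complete immediate extension, statements

ROUTE (replaces "Zorn on subsets of a big set" of [V] by Zorn on intermediate fields of ONE big valued field).
An `Ambient v` is a valued extension `(Ω, V : Valuation Ω Γ)` of `(L, v)`, `ℚᵐ⁰ ↪ Γ`, algebraically closed and countably saturated for balls with radii in `ℚᵐ⁰`.
`M ⊆ Ω` is *immediate* (`IsImm`) if every `z ∈ M ∖ 0` has an `a ∈ L` with `V (z - a) < V z`.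

* Val2a (~500 lines) `exists_ambient`: `Lb := AlgebraicClosure L`, `vb` a prolongation (`exists_valExt_val`), `U := Filter.hyperfilter ℕ`, `Ω := U.Germ Lb` (a field: `Mathlib/Order/Filter/FilterProduct.lean`),
  `Γ := U.Germ ℚᵐ⁰` (build `LinearOrderedCommGroupWithZero`: `Filter.Germ.instGroupWithZero`, linear order of germs at an ultrafilter, `Germ.coe_le`, `Germ.inductionOn₂`), `V := Germ.map vb`, `j :=` constant germs.
  - algebraically closed: `IsAlgClosed.of_exists_root`; represent the coefficients by sequences, choose a root of the `i`-th polynomial for each `i` where the leading coefficient does not vanish.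
  - saturation: `a n = ↑(α n)`, `S k := {i | ∀ n ≤ m ≤ k, vb (α m i - α n i) ≤ r n} ∈ U`; `k i := max {k ≤ i | i ∈ S k}`, `x := ↑(fun i => α (k i) i)`; for fixed `n`, `{i | n ≤ i} ∩ S n ⊆ {i | n ≤ k i}`, and `n ≤ k i`, `i ∈ S (k i)` give
    `vb (x i - α n i) ≤ r n`.
* Val2b (~250 lines) `Ambient.isImm_bot`, `Ambient.exists_maximal`: `zorn_le_nonempty₀` / `zorn_subset`; a chain of immediate intermediate fields has an immediate union (`IntermediateField` `iSup` of a directed family:
  `IntermediateField.mem_iSup_of_directed`… or define the union by hand).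
* Val2c (~400 lines) `Ambient.IsImm.exists_val`: `V z = j (v a)` for the `a` of `IsImm`; `vM z :=` that value (`j` injective); valuation axioms from those of `V` and strict monotonicity of `j`; residue map `z ↦ r.res a`.
* Val2d (~350 lines) `exists_pc_of_not_sph` ([V], display (6.5)): no ball of minimal radius; the radii form a countable set, choose a strictly decreasing coinitial sequence of balls; thin it out so that each centre is outside the next ball.
* Val2e (~550 lines) `Ambient.isImm_adjoin` ([V], the two cases, treated together by factoring over `Ω`).  `PL := {β | ∀ n, V (β - a n) ≤ j (δ n)}`.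
  (i) `y ∈ PL`, `β ∉ PL` ⇒ `V (y - a n) < V (a n - β)` for large `n` (`V (β - a n)` is eventually constant `> j (δ n₀)`).  (ii) `u_k ∼ u_k'` ⇒ `∏ u_k ∼ ∏ u_k'`, `u/w ∼ u'/w'`, where `u ∼ u' :↔ V (u - u') < V u'`.
  (iii) `f ∈ M[X]` nonzero without root in `PL`: `f = c ∏ (X - β_k)` over `Ω` (`IsAlgClosed.splits`, `Polynomial.eq_prod_roots_of_splits_id`), so `f(y) ∼ f(a n)` for large `n`, `f (a n) ∈ M ∖ 0`.
  (iv) `y` transcendental over `M`: elements of `M(y)` are `f(y)/g(y)` (`IntermediateField.mem_adjoin_simple_iff`), no root of `f, g` is in `PL` by `hmin`.  `y` algebraic: elements are `f(y)`, `deg f < deg (minpoly M y)`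
  (`%ₘ minpoly`), again no root in `PL` by `hmin`.  (v) `z ∼ z' ∈ M`, `z' ∼ a ∈ L` ⇒ `z ∼ a`.
`Val/V2Sph.lean` contains the glue.

Owner of the statements: helper256.
-/

set_option autoImplicit false

namespace Claimed.Agent.R280

open WithZero

section AmbAux

open Filter

/-- ultrapowers of linearly ordered commutative groups with zero -/
@[reducible] noncomputable def amb_instGamma {α : Type} (φ : Ultrafilter α) (β : Type)
    [LinearOrderedCommGroupWithZero β] : LinearOrderedCommGroupWithZero (Germ (φ : Filter α) β) where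
  __ := (Germ.instLinearOrder : LinearOrder (Germ (φ : Filter α) β))
  __ := (Germ.instGroupWithZero : GroupWithZero (Germ (φ : Filter α) β))
  mul_comm := mul_comm
  bot := 0
  bot_le := fun x => Germ.inductionOn x fun _ => Germ.coe_le.2 (Eventually.of_forall fun _ => zero_le)
  isBot_zero := fun x => Germ.inductionOn x fun _ => Germ.coe_le.2 (Eventually.of_forall fun _ => zero_le)
  mul_lt_mul_of_pos_left := fun x => Germ.inductionOn x fun _ hf y z => Germ.inductionOn₂ y z fun _ _ hgh =>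
    Germ.coe_lt.2 <| (Germ.coe_lt.1 hf).mp <| (Germ.coe_lt.1 hgh).mono fun _ h1 h2 =>
      mul_lt_mul_of_pos_left h1 h2

attribute [local instance] amb_instGamma

variable {α K β : Type} (φ : Ultrafilter α) [Field K] [LinearOrderedCommGroupWithZero β]

/-- the ultrapower of a valuation -/
noncomputable def amb_V (w : Valuation K β) : Valuation (Germ (φ : Filter α) K) (Germ (φ : Filter α) β) where
  toFun := Germ.map w
  map_zero' := (Germ.map_const _ 0 w).trans (congrArg _ w.map_zero)
  map_one' := (Germ.map_const _ 1 w).trans (congrArg _ w.map_one)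
  map_mul' := fun x y => Germ.inductionOn₂ x y fun f g =>
    Germ.coe_eq.2 (Eventually.of_forall fun i => w.map_mul (f i) (g i))
  map_add_le_max' := fun x y => Germ.inductionOn₂ x y fun f g => by
    have h : ∀ᶠ i in (φ : Filter α), w (f i + g i) ≤ w (f i) ∨ w (f i + g i) ≤ w (g i) :=
      Eventually.of_forall fun i => le_max_iff.1 (w.map_add (f i) (g i))
    rcases Ultrafilter.eventually_or.1 h with h1 | h1
    · exact le_max_of_le_left (Germ.coe_le.2 h1)
    · exact le_max_of_le_right (Germ.coe_le.2 h1)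

theorem amb_V_coe (w : Valuation K β) (f : α → K) :
    amb_V φ w (f : Germ (φ : Filter α) K) = ((fun i => w (f i) : α → β) : Germ (φ : Filter α) β) := rfl

/-- constant germs -/
noncomputable def amb_j : β →*₀ Germ (φ : Filter α) β where
  toFun := fun b => (↑b : Germ (φ : Filter α) β)
  map_zero' := rfl
  map_one' := rfl
  map_mul' := fun _ _ => rfl

theorem amb_j_strictMono : StrictMono (amb_j φ : β →*₀ Germ (φ : Filter α) β) :=
  fun _ _ h => Germ.const_lt h

theorem amb_V_le_j (w : Valuation K β) (f : α → K) (b : β) :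
    amb_V φ w (f : Germ (φ : Filter α) K) ≤ amb_j φ b ↔ ∀ᶠ i in (φ : Filter α), w (f i) ≤ b :=
  Germ.coe_le

/-- an ultrapower of an algebraically closed field is algebraically closed -/
theorem amb_isAlgClosed [IsAlgClosed K] : IsAlgClosed (Germ (φ : Filter α) K) := by
  refine IsAlgClosed.of_exists_root _ fun p hp hirr => ?_
  have hn : p.natDegree ≠ 0 := fun h0 =>
    hirr.not_isUnit (by rw [hp.natDegree_eq_zero] at h0; rw [h0]; exact isUnit_one)
  -- representatives of the coefficients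
  choose rep hrep using fun k : ℕ => Quotient.exists_rep (p.coeff k)
  have hrep' : ∀ k, ((rep k : α → K) : Germ (φ : Filter α) K) = p.coeff k := hrep
  -- the polynomials
  let q : α → Polynomial K := fun i =>
    Polynomial.X ^ p.natDegree + ∑ k ∈ Finset.range p.natDegree, Polynomial.C (rep k i) * Polynomial.X ^ k
  have hq : ∀ i, (q i).degree ≠ 0 := by
    intro i
    have hlt : (∑ k ∈ Finset.range p.natDegree, Polynomial.C (rep k i) * Polynomial.X ^ k).degree
        < (p.natDegree : WithBot ℕ) := by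
      refine (Polynomial.degree_sum_le _ _).trans_lt ?_
      rw [Finset.sup_lt_iff (WithBot.bot_lt_coe _)]
      intro k hk
      exact (Polynomial.degree_C_mul_X_pow_le _ _).trans_lt (by exact_mod_cast Finset.mem_range.1 hk)
    have : (q i).degree = (p.natDegree : WithBot ℕ) := by
      show (Polynomial.X ^ p.natDegree + _ : Polynomial K).degree = _
      rw [Polynomial.degree_add_eq_left_of_degree_lt (by rw [Polynomial.degree_X_pow]; exact hlt),
        Polynomial.degree_X_pow]
    rw [this]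
    exact_mod_cast hn
  choose xs hxs using fun i => IsAlgClosed.exists_root (q i) (hq i)
  refine ⟨((xs : α → K) : Germ (φ : Filter α) K), ?_⟩
  have e1 : p.eval ((xs : α → K) : Germ (φ : Filter α) K) =
      Germ.coeRingHom (φ : Filter α) (xs ^ p.natDegree + ∑ k ∈ Finset.range p.natDegree, rep k * xs ^ k) := by
    conv_lhs => rw [hp.as_sum]
    simp only [Polynomial.eval_add, Polynomial.eval_pow, Polynomial.eval_X, Polynomial.eval_finsetSum,
      Polynomial.eval_mul, Polynomial.eval_C, map_add, map_pow, map_sum, map_mul]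
    simp only [Germ.coe_coeRingHom]
    congr 1
    refine Finset.sum_congr rfl fun k _ => ?_
    rw [← hrep' k]
  have e2 : (xs ^ p.natDegree + ∑ k ∈ Finset.range p.natDegree, rep k * xs ^ k : α → K) = 0 := by
    funext i
    have := hxs i
    simp only [q, Polynomial.IsRoot.def, Polynomial.eval_add, Polynomial.eval_pow, Polynomial.eval_X,
      Polynomial.eval_finsetSum, Polynomial.eval_mul, Polynomial.eval_C] at this
    simpa [Finset.sum_apply] using this
  rw [e1, e2, map_zero]

/-- countable saturation of the ultrapower along the hyperfilter (diagonal argument) -/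
theorem amb_sat (w : Valuation K β) (a : ℕ → Germ ((hyperfilter ℕ : Ultrafilter ℕ) : Filter ℕ) K) (r : ℕ → β)
    (h : ∀ n m, n ≤ m → amb_V (hyperfilter ℕ) w (a m - a n) ≤ amb_j (hyperfilter ℕ) (r n)) :
    ∃ x, ∀ n, amb_V (hyperfilter ℕ) w (x - a n) ≤ amb_j (hyperfilter ℕ) (r n) := by
  classical
  choose al hal using fun n => Quotient.exists_rep (a n)
  have hal' : ∀ n, ((al n : ℕ → K) : Germ ((hyperfilter ℕ : Ultrafilter ℕ) : Filter ℕ) K) = a n := hal
  have h1 : ∀ n m, n ≤ m → ∀ᶠ i in ((hyperfilter ℕ : Ultrafilter ℕ) : Filter ℕ), w (al m i - al n i) ≤ r n := by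
    intro n m hnm
    have := h n m hnm
    rw [← hal' m, ← hal' n] at this
    exact (amb_V_le_j _ w (fun i => al m i - al n i) (r n)).1 this
  let S : ℕ → ℕ → Prop := fun k i => ∀ n m, n ≤ m → m ≤ k → w (al m i - al n i) ≤ r n
  have hS : ∀ k, ∀ᶠ i in ((hyperfilter ℕ : Ultrafilter ℕ) : Filter ℕ), S k i := by
    intro k
    have : ∀ᶠ i in ((hyperfilter ℕ : Ultrafilter ℕ) : Filter ℕ), ∀ m ∈ Finset.range (k + 1),
        ∀ n ∈ Finset.range (m + 1), w (al m i - al n i) ≤ r n := by
      rw [Filter.eventually_all_finset]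
      intro m _
      rw [Filter.eventually_all_finset]
      intro n hn
      exact h1 n m (Nat.lt_succ_iff.1 (Finset.mem_range.1 hn))
    exact this.mono fun i hi n m hnm hmk =>
      hi m (Finset.mem_range.2 (by omega)) n (Finset.mem_range.2 (by omega))
  let kk : ℕ → ℕ := fun i => Nat.findGreatest (fun k => S k i) i
  refine ⟨((fun i => al (kk i) i : ℕ → K) : Germ ((hyperfilter ℕ : Ultrafilter ℕ) : Filter ℕ) K), fun n => ?_⟩
  rw [← hal' n]
  refine (amb_V_le_j _ w (fun i => al (kk i) i - al n i) (r n)).2 ?_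
  have hge : ∀ᶠ i in ((hyperfilter ℕ : Ultrafilter ℕ) : Filter ℕ), n ≤ i :=
    hyperfilter_le_cofinite (by rw [Nat.cofinite_eq_atTop]; exact eventually_ge_atTop n)
  filter_upwards [hS n, hge] with i hi hni
  have h2 : n ≤ kk i := Nat.le_findGreatest hni hi
  have h3 : S (kk i) i := Nat.findGreatest_spec (P := fun k => S k i) hni hi
  exact h3 n (kk i) h2 le_rfl

end AmbAux

/-- an algebraically closed, countably saturated valued extension of `(L, v)` -/
structure Ambient {L : Type} [Field L] (v : Valuation L ℚᵐ⁰) where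
  Ω : Type
  Γ : Type
  [fΩ : Field Ω]
  [aΩ : Algebra L Ω]
  [oΓ : LinearOrderedCommGroupWithZero Γ]
  V : Valuation Ω Γ
  j : ℚᵐ⁰ →*₀ Γ
  j_mono : StrictMono j
  ext : ∀ a : L, V (algebraMap L Ω a) = j (v a)
  algClosed : IsAlgClosed Ω
  sat : ∀ (a : ℕ → Ω) (r : ℕ → ℚᵐ⁰), (∀ n m, n ≤ m → V (a m - a n) ≤ j (r n)) →
    ∃ x, ∀ n, V (x - a n) ≤ j (r n)

attribute [instance] Ambient.fΩ Ambient.aΩ Ambient.oΓ

theorem exists_ambient {L : Type} [Field L] (v : Valuation L ℚᵐ⁰) : Nonempty (Ambient v) := by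
  obtain ⟨vb, hvb⟩ := exists_valExt_val v (AlgebraicClosure L)
  exact ⟨
    { Ω := Filter.Germ ((Filter.hyperfilter ℕ : Ultrafilter ℕ) : Filter ℕ) (AlgebraicClosure L)
      Γ := Filter.Germ ((Filter.hyperfilter ℕ : Ultrafilter ℕ) : Filter ℕ) ℚᵐ⁰
      aΩ := ((Filter.Germ.coeRingHom ((Filter.hyperfilter ℕ : Ultrafilter ℕ) : Filter ℕ)).comp
        ((Pi.constRingHom ℕ (AlgebraicClosure L)).comp (algebraMap L (AlgebraicClosure L)))).toAlgebra
      oΓ := amb_instGamma (Filter.hyperfilter ℕ) ℚᵐ⁰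
      V := amb_V (Filter.hyperfilter ℕ) vb
      j := amb_j (Filter.hyperfilter ℕ)
      j_mono := amb_j_strictMono (Filter.hyperfilter ℕ)
      ext := fun a => congrArg (fun q : ℚᵐ⁰ =>
        (↑q : Filter.Germ ((Filter.hyperfilter ℕ : Ultrafilter ℕ) : Filter ℕ) ℚᵐ⁰)) (hvb a)
      algClosed := amb_isAlgClosed (Filter.hyperfilter ℕ)
      sat := amb_sat vb }⟩

variable {L : Type} [Field L] {v : Valuation L ℚᵐ⁰}

/-- `M/L` is an immediate extension (inside `Ω`) -/
def Ambient.IsImm (A : Ambient v) (M : IntermediateField L A.Ω) : Prop :=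
  ∀ z ∈ M, z ≠ 0 → ∃ a : L, A.V (z - algebraMap L A.Ω a) < A.V z

theorem Ambient.isImm_bot (A : Ambient v) : A.IsImm ⊥ := by
  intro z hz hz0
  obtain ⟨a, rfl⟩ := IntermediateField.mem_bot.1 hz
  refine ⟨a, ?_⟩
  rw [sub_self, map_zero]
  exact zero_lt_iff.2 ((Valuation.ne_zero_iff _).2 hz0)

theorem Ambient.exists_maximal (A : Ambient v) :
    ∃ M, A.IsImm M ∧ ∀ M', A.IsImm M' → M ≤ M' → M' = M := by
  obtain ⟨M, -, hM⟩ := zorn_le_nonempty₀ {M : IntermediateField L A.Ω | A.IsImm M} (by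
    intro c hc hchain M₀ hM₀
    have : Nonempty c := ⟨⟨M₀, hM₀⟩⟩
    have hdir : Directed (· ≤ ·) (fun M : c => (M : IntermediateField L A.Ω)) :=
      hchain.directedOn.directed_val
    refine ⟨⨆ M : c, (M : IntermediateField L A.Ω), ?_, fun M hMc => le_iSup
      (fun M : c => (M : IntermediateField L A.Ω)) ⟨M, hMc⟩⟩
    intro z hz hz0
    have hz' : z ∈ ((⨆ M : c, (M : IntermediateField L A.Ω) : IntermediateField L A.Ω) : Set A.Ω) := hz
    rw [IntermediateField.coe_iSup_of_directed hdir, Set.mem_iUnion] at hz'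
    obtain ⟨M, hzM⟩ := hz'
    exact hc M.2 z hzM hz0) ⊥ A.isImm_bot
  exact ⟨M, hM.prop, fun M' h' hle => le_antisymm (hM.le_of_ge h' hle) hle⟩

/-- values of an immediate extension lie in the image of `j` -/
theorem v2c_val {A : Ambient v} {M : IntermediateField L A.Ω} (hM : A.IsImm M) (z : M) :
    ∃ q : ℚᵐ⁰, A.V (z : A.Ω) = A.j q := by
  by_cases hz : (z : A.Ω) = 0
  · exact ⟨0, by rw [hz]; simp⟩
  · obtain ⟨a, ha⟩ := hM z z.2 hz
    refine ⟨v a, ?_⟩
    rw [← A.ext]
    have h1 : algebraMap L A.Ω a = (z : A.Ω) - ((z : A.Ω) - algebraMap L A.Ω a) := by ring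
    rw [h1]
    exact (Valuation.map_sub_eq_of_lt_left A.V ha).symm

/-- approximation of integral elements -/
theorem v2c_approx {A : Ambient v} {M : IntermediateField L A.Ω} (hM : A.IsImm M) (z : A.Ω) (hzM : z ∈ M)
    (hz : A.V z ≤ 1) : ∃ a : v.valuationSubring, A.V (z - algebraMap L A.Ω (a : L)) < 1 := by
  rcases hz.lt_or_eq with h | h
  · exact ⟨0, by simpa using h⟩
  · have hz0 : z ≠ 0 := by
      rintro rfl
      simp at h
    obtain ⟨a, ha⟩ := hM z hzM hz0
    have h1 : algebraMap L A.Ω a = z - (z - algebraMap L A.Ω a) := by ring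
    have h2 : A.V (algebraMap L A.Ω a) = A.V z := by
      rw [h1]
      exact Valuation.map_sub_eq_of_lt_left A.V ha
    have h3 : v a = 1 := by
      apply A.j_mono.injective
      rw [← A.ext, h2, h, map_one]
    exact ⟨⟨a, (Valuation.mem_valuationSubring_iff v a).2 h3.le⟩, by rw [← h]; exact ha⟩

theorem Ambient.IsImm.exists_val {A : Ambient v} {M : IntermediateField L A.Ω} (hM : A.IsImm M)
    {F : Type} [Field F] (r : ResMap v F) :
    ∃ (vM : Valuation M ℚᵐ⁰) (rM : ResMap vM F),
      (∀ z : M, A.V (z : A.Ω) = A.j (vM z)) ∧ ValExt vM v ∧ ResExt rM r := by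
  classical
  choose q hq using v2c_val hM
  have hj : Function.Injective A.j := A.j_mono.injective
  let vM : Valuation M ℚᵐ⁰ :=
    { toFun := q
      map_zero' := hj (by rw [← hq]; simp)
      map_one' := hj (by rw [← hq]; simp)
      map_mul' := fun x y => hj (by rw [← hq, map_mul, ← hq, ← hq]; simp)
      map_add_le_max' := fun x y => by
        rw [← A.j_mono.le_iff_le, A.j_mono.monotone.map_max, ← hq, ← hq, ← hq]
        exact A.V.map_add _ _ }
  have hV : ∀ z : M, A.V (z : A.Ω) = A.j (vM z) := hq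
  have hle1 : ∀ z : M, vM z ≤ 1 ↔ A.V (z : A.Ω) ≤ 1 := fun z => by
    rw [hV, ← map_one A.j, A.j_mono.le_iff_le]
  have hlt1 : ∀ z : M, vM z < 1 ↔ A.V (z : A.Ω) < 1 := fun z => by
    rw [hV, ← map_one A.j, A.j_mono.lt_iff_lt]
  have hLlt1 : ∀ a : L, v a < 1 ↔ A.V (algebraMap L A.Ω a) < 1 := fun a => by
    rw [A.ext, ← map_one A.j, A.j_mono.lt_iff_lt]
  have hLle1 : ∀ a : L, v a ≤ 1 ↔ A.V (algebraMap L A.Ω a) ≤ 1 := fun a => by
    rw [A.ext, ← map_one A.j, A.j_mono.le_iff_le]
  have hext : ValExt vM v := fun a => hj (by rw [← hV, ← A.ext]; rfl)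
  have happ : ∀ z : vM.valuationSubring, ∃ a : v.valuationSubring,
      A.V (((z : M) : A.Ω) - algebraMap L A.Ω (a : L)) < 1 := fun z =>
    v2c_approx hM _ (z : M).2 ((hle1 _).1 ((Valuation.mem_valuationSubring_iff vM _).1 z.2))
  choose φ hφ using happ
  have key : ∀ (z : vM.valuationSubring) (a : v.valuationSubring),
      A.V (((z : M) : A.Ω) - algebraMap L A.Ω (a : L)) < 1 → r.toHom (φ z) = r.toHom a := by
    intro z a ha
    rw [← sub_eq_zero, ← map_sub, r.ker, hLlt1]
    have h1 : algebraMap L A.Ω ((φ z - a : v.valuationSubring) : L) =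
        (((z : M) : A.Ω) - algebraMap L A.Ω (a : L)) - (((z : M) : A.Ω) - algebraMap L A.Ω (φ z : L)) := by
      have e : ((φ z - a : v.valuationSubring) : L) = (φ z : L) - (a : L) := rfl
      rw [e, map_sub]
      ring
    rw [h1]
    exact (A.V.map_sub _ _).trans_lt (max_lt ha (hφ z))
  have hzle : ∀ z : vM.valuationSubring, A.V ((z : M) : A.Ω) ≤ 1 := fun z =>
    (hle1 _).1 ((Valuation.mem_valuationSubring_iff vM _).1 z.2)
  have hale : ∀ a : v.valuationSubring, A.V (algebraMap L A.Ω (a : L)) ≤ 1 := fun a =>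
    (hLle1 _).1 ((Valuation.mem_valuationSubring_iff v _).1 a.2)
  let f : vM.valuationSubring →+* F :=
    { toFun := fun z => r.toHom (φ z)
      map_one' := by
        rw [← map_one r.toHom]
        exact key 1 1 (by simp)
      map_zero' := by
        rw [← map_zero r.toHom]
        exact key 0 0 (by simp)
      map_mul' := fun x y => by
        rw [← map_mul r.toHom]
        refine key (x * y) (φ x * φ y) ?_
        have h1 : (((x * y : vM.valuationSubring) : M) : A.Ω) - algebraMap L A.Ω ((φ x * φ y : v.valuationSubring) : L)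
            = ((x : M) : A.Ω) * (((y : M) : A.Ω) - algebraMap L A.Ω (φ y : L))
              + algebraMap L A.Ω (φ y : L) * (((x : M) : A.Ω) - algebraMap L A.Ω (φ x : L)) := by
          have e : ((φ x * φ y : v.valuationSubring) : L) = (φ x : L) * (φ y : L) := rfl
          have e' : (((x * y : vM.valuationSubring) : M) : A.Ω) = ((x : M) : A.Ω) * ((y : M) : A.Ω) := rfl
          rw [e, e', map_mul]
          ring
        rw [h1]
        refine (A.V.map_add _ _).trans_lt (max_lt ?_ ?_)
        · rw [map_mul]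
          exact (mul_le_of_le_one_left' (hzle x)).trans_lt (hφ y)
        · rw [map_mul]
          exact (mul_le_of_le_one_left' (hale (φ y))).trans_lt (hφ x)
      map_add' := fun x y => by
        rw [← map_add r.toHom]
        refine key (x + y) (φ x + φ y) ?_
        have h1 : (((x + y : vM.valuationSubring) : M) : A.Ω) - algebraMap L A.Ω ((φ x + φ y : v.valuationSubring) : L)
            = (((x : M) : A.Ω) - algebraMap L A.Ω (φ x : L)) + (((y : M) : A.Ω) - algebraMap L A.Ω (φ y : L)) := by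
          have e : ((φ x + φ y : v.valuationSubring) : L) = (φ x : L) + (φ y : L) := rfl
          have e' : (((x + y : vM.valuationSubring) : M) : A.Ω) = ((x : M) : A.Ω) + ((y : M) : A.Ω) := rfl
          rw [e, e', map_add]
          ring
        rw [h1]
        exact (A.V.map_add _ _).trans_lt (max_lt (hφ x) (hφ y)) }
  have hf : ∀ z, f z = r.toHom (φ z) := fun z => rfl
  have hemb : ∀ a : v.valuationSubring, vM (algebraMap L M (a : L)) ≤ 1 := fun a => by
    rw [hext]; exact (Valuation.mem_valuationSubring_iff v _).1 a.2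
  have hfa : ∀ a : v.valuationSubring,
      f ⟨algebraMap L M (a : L), (Valuation.mem_valuationSubring_iff vM _).2 (hemb a)⟩ = r.toHom a := by
    intro a
    rw [hf]
    refine key _ a ?_
    have : (((⟨algebraMap L M (a : L), (Valuation.mem_valuationSubring_iff vM _).2 (hemb a)⟩ :
        vM.valuationSubring) : M) : A.Ω) = algebraMap L A.Ω (a : L) := rfl
    rw [this, sub_self, map_zero]
    exact zero_lt_one
  let rM : ResMap vM F :=
    { toHom := f
      surj := fun y => by
        obtain ⟨a, rfl⟩ := r.surj y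
        exact ⟨_, hfa a⟩
      ker := fun z => by
        rw [hf, r.ker, hLlt1, hlt1]
        constructor
        · intro h
          have h1 : ((z : M) : A.Ω) = (((z : M) : A.Ω) - algebraMap L A.Ω (φ z : L)) + algebraMap L A.Ω (φ z : L) := by
            ring
          rw [h1]
          exact (A.V.map_add _ _).trans_lt (max_lt (hφ z) h)
        · intro h
          have h1 : algebraMap L A.Ω (φ z : L) = ((z : M) : A.Ω) - (((z : M) : A.Ω) - algebraMap L A.Ω (φ z : L)) := by
            ring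
          rw [h1]
          exact (A.V.map_sub _ _).trans_lt (max_lt h (hφ z)) }
  refine ⟨vM, rM, hV, hext, ?_⟩
  intro a ha
  have ha' : vM (algebraMap L M a) ≤ 1 := by rw [hext]; exact ha
  unfold ResMap.res
  rw [dif_pos ha, dif_pos ha']
  exact hfa ⟨a, (Valuation.mem_valuationSubring_iff v a).2 ha⟩

/-- a countable nonempty set without minimum in a linear order has a strictly decreasing coinitial sequence -/
theorem v2d_coinitial {α : Type} [LinearOrder α] [Countable α] (R : Set α) (hne : R.Nonempty)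
    (hmin : ∀ r ∈ R, ∃ r' ∈ R, r' < r) :
    ∃ ρ : ℕ → α, (∀ n, ρ n ∈ R) ∧ StrictAnti ρ ∧ ∀ r ∈ R, ∃ n, ρ n ≤ r := by
  classical
  obtain ⟨e, he⟩ := (Set.to_countable R).exists_eq_range hne
  have heR : ∀ n, e n ∈ R := fun n => by rw [he]; exact ⟨n, rfl⟩
  have hminR : ∀ (x : R) (n : ℕ), min x.1 (e n) ∈ R := by
    intro x n
    rcases min_choice x.1 (e n) with h | h
    · rw [h]; exact x.2
    · rw [h]; exact heR n
  let step : ℕ → R → R := fun n x =>
    ⟨Classical.choose (hmin _ (hminR x (n + 1))), (Classical.choose_spec (hmin _ (hminR x (n + 1)))).1⟩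
  have hstep : ∀ n (x : R), (step n x).1 < min x.1 (e (n + 1)) := fun n x =>
    (Classical.choose_spec (hmin _ (hminR x (n + 1)))).2
  let ρ : ℕ → R := fun n => Nat.rec ⟨e 0, heR 0⟩ step n
  have hρs : ∀ n, ρ (n + 1) = step n (ρ n) := fun n => rfl
  refine ⟨fun n => (ρ n).1, fun n => (ρ n).2, ?_, ?_⟩
  · refine strictAnti_nat_of_succ_lt fun n => ?_
    show (ρ (n + 1)).1 < (ρ n).1
    rw [hρs]
    exact (hstep n (ρ n)).trans_le (min_le_left _ _)
  · intro r hr
    rw [he] at hr
    obtain ⟨n, rfl⟩ := hr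
    refine ⟨n, ?_⟩
    cases n with
    | zero => exact le_rfl
    | succ n =>
      show (ρ (n + 1)).1 ≤ _
      rw [hρs]
      exact ((hstep n (ρ n)).trans_le (min_le_right _ _)).le

theorem v2d_countable : Countable ℚᵐ⁰ := by
  have : Countable (Multiplicative ℚ) := inferInstanceAs (Countable ℚ)
  exact inferInstanceAs (Countable (Option (Multiplicative ℚ)))

/-- a valued field which is not spherically complete has a pseudo-convergent sequence without pseudo-limit -/
theorem exists_pc_of_not_sph {K : Type} [Field K] (w : Valuation K ℚᵐ⁰) (h : ¬ IsSphComplete w) :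
    ∃ (a : ℕ → K) (δ : ℕ → ℚᵐ⁰), StrictAnti δ ∧ (∀ n, δ n ≠ 0) ∧
      (∀ n m, n < m → w (a m - a n) = δ n) ∧ ¬ ∃ z, ∀ n, w (z - a n) ≤ δ n := by
  classical
  have := v2d_countable
  unfold IsSphComplete at h
  push Not at h
  obtain ⟨B, -, hBm, hBe⟩ := h
  obtain ⟨b0, hb0, -⟩ := hBe 0
  have hmin : ∀ r ∈ Prod.snd '' B, ∃ r' ∈ Prod.snd '' B, r' < r := by
    rintro _ ⟨b, hb, rfl⟩
    obtain ⟨b', hb', hlt⟩ := hBe b.1
    refine ⟨b'.2, ⟨b', hb', rfl⟩, ?_⟩
    have h1 := hBm b hb b' hb'
    by_contra hcon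
    rw [max_eq_right (not_lt.1 hcon)] at h1
    exact absurd h1 (not_le.2 hlt)
  obtain ⟨ρ, hρR, hρa, hρc⟩ := v2d_coinitial (Prod.snd '' B) ⟨_, b0, hb0, rfl⟩ hmin
  choose c hcB hcρ using hρR
  have hnest : ∀ n m, n ≤ m → w ((c m).1 - (c n).1) ≤ ρ n := by
    intro n m hnm
    have h1 := hBm (c m) (hcB m) (c n) (hcB n)
    rw [hcρ, hcρ, max_eq_right (hρa.antitone hnm)] at h1
    exact h1
  have hball : ∀ n, ∀ b ∈ B, ρ n ≤ b.2 → w ((c n).1 - b.1) ≤ b.2 := by
    intro n b hb hle
    have h1 := hBm (c n) (hcB n) b hb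
    rw [hcρ, max_eq_right hle] at h1
    exact h1
  have hout : ∀ n, ∃ m, n < m ∧ ρ m < w ((c m).1 - (c n).1) := by
    intro n
    obtain ⟨b, hb, hlt⟩ := hBe (c n).1
    obtain ⟨k, hk⟩ := hρc b.2 ⟨b, hb, rfl⟩
    refine ⟨max k (n + 1), lt_of_lt_of_le (Nat.lt_succ_self n) (le_max_right _ _), ?_⟩
    by_contra hcon
    have h1 : ρ (max k (n + 1)) ≤ b.2 := (hρa.antitone (le_max_left _ _)).trans hk
    have h2 : w ((c (max k (n + 1))).1 - (c n).1) ≤ b.2 := (not_lt.1 hcon).trans h1
    have h3 := hball _ b hb h1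
    have h4 : w ((c n).1 - b.1) ≤ b.2 := by
      have : (c n).1 - b.1 = ((c (max k (n + 1))).1 - b.1) - ((c (max k (n + 1))).1 - (c n).1) := by ring
      rw [this]
      exact (w.map_sub _ _).trans (max_le h3 h2)
    exact absurd h4 (not_le.2 hlt)
  choose g hg1 hg2 using hout
  let N : ℕ → ℕ := fun k => g^[k] 0
  have hNs : ∀ k, N (k + 1) = g (N k) := fun k => Function.iterate_succ_apply' g k 0
  have hNmono : StrictMono N := strictMono_nat_of_lt_succ fun k => by rw [hNs]; exact hg1 _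
  have hd1 : ∀ k, w ((c (N (k + 1))).1 - (c (N k)).1) ≤ ρ (N k) := fun k =>
    hnest _ _ (hNmono (Nat.lt_succ_self k)).le
  have hd2 : ∀ k, ρ (N (k + 1)) < w ((c (N (k + 1))).1 - (c (N k)).1) := fun k => by
    rw [hNs]; exact hg2 _
  refine ⟨fun k => (c (N k)).1, fun k => w ((c (N (k + 1))).1 - (c (N k)).1), ?_, ?_, ?_, ?_⟩
  · exact strictAnti_nat_of_succ_lt fun k => (hd1 (k + 1)).trans_lt (hd2 k)
  · exact fun k => ne_of_gt (lt_of_le_of_lt zero_le (hd2 k))
  · intro k m hkm
    show w ((c (N m)).1 - (c (N k)).1) = w ((c (N (k + 1))).1 - (c (N k)).1)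
    have h1 : w ((c (N m)).1 - (c (N (k + 1))).1) ≤ ρ (N (k + 1)) :=
      hnest _ _ (hNmono.monotone hkm)
    have h2 : (c (N m)).1 - (c (N k)).1 =
        ((c (N m)).1 - (c (N (k + 1))).1) + ((c (N (k + 1))).1 - (c (N k)).1) := by ring
    rw [h2]
    exact Valuation.map_add_eq_of_lt_right w (h1.trans_lt (hd2 k))
  · rintro ⟨z, hz⟩
    obtain ⟨b, hb, hlt⟩ := hBe z
    obtain ⟨n, hn⟩ := hρc b.2 ⟨b, hb, rfl⟩
    have h1 : ρ (N n) ≤ b.2 := (hρa.antitone (hNmono.id_le n)).trans hn
    have h2 : w (z - (c (N n)).1) ≤ b.2 := ((hz n).trans (hd1 n)).trans h1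
    have h3 := hball _ b hb h1
    have h4 : w (z - b.1) ≤ b.2 := by
      have : z - b.1 = (z - (c (N n)).1) + ((c (N n)).1 - b.1) := by ring
      rw [this]
      exact (w.map_add _ _).trans (max_le h2 h3)
    exact absurd h4 (not_le.2 hlt)

section v2eSim

variable {K Γ : Type} [Field K] [LinearOrderedCommGroupWithZero Γ] (V : Valuation K Γ)

/-- `u ∼ u'` -/
def v2eSim (u u' : K) : Prop := V (u - u') < V u'

variable {V}

theorem v2e_sim_val {u u' : K} (h : v2eSim V u u') : V u = V u' := by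
  have h1 : u = u' + (u - u') := by ring
  rw [h1]
  exact Valuation.map_add_eq_of_lt_left V h

theorem v2e_sim_pos {u u' : K} (h : v2eSim V u u') : 0 < V u' := lt_of_le_of_lt zero_le h

theorem v2e_sim_refl {u : K} (h : u ≠ 0) : v2eSim V u u := by
  unfold v2eSim
  rw [sub_self, map_zero]
  exact (Valuation.pos_iff V).2 h

theorem v2e_sim_mul {u u' w w' : K} (h1 : v2eSim V u u') (h2 : v2eSim V w w') :
    v2eSim V (u * w) (u' * w') := by
  unfold v2eSim
  have e : u * w - u' * w' = u * (w - w') + w' * (u - u') := by ring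
  rw [e, map_mul V u' w']
  refine (V.map_add _ _).trans_lt (max_lt ?_ ?_)
  · rw [map_mul, v2e_sim_val h1]
    exact mul_lt_mul_of_pos_left h2 (v2e_sim_pos h1)
  · rw [map_mul, mul_comm (V u')]
    exact mul_lt_mul_of_pos_left h1 (v2e_sim_pos h2)

theorem v2e_sim_inv {u u' : K} (h : v2eSim V u u') : v2eSim V u⁻¹ u'⁻¹ := by
  have hp := v2e_sim_pos h
  have hu' : u' ≠ 0 := (Valuation.pos_iff V).1 hp
  have hu : u ≠ 0 := (Valuation.pos_iff V).1 (by rw [v2e_sim_val h]; exact hp)
  unfold v2eSim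
  have e : u⁻¹ - u'⁻¹ = (u' - u) * (u⁻¹ * u'⁻¹) := by
    field_simp
  rw [e, map_mul, map_mul, Valuation.map_sub_swap, map_inv₀, map_inv₀, v2e_sim_val h]
  have h3 : 0 < (V u')⁻¹ * (V u')⁻¹ := by
    have : 0 < (V u')⁻¹ := inv_pos.2 hp
    exact mul_pos this this
  calc V (u - u') * ((V u')⁻¹ * (V u')⁻¹) < V u' * ((V u')⁻¹ * (V u')⁻¹) :=
        mul_lt_mul_of_pos_right h h3
    _ = (V u')⁻¹ := by
        rw [← mul_assoc, mul_inv_cancel₀ hp.ne', one_mul]

theorem v2e_sim_trans {u u' u'' : K} (h1 : v2eSim V u u') (h2 : v2eSim V u' u'') : v2eSim V u u'' := by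
  unfold v2eSim
  have e : u - u'' = (u - u') + (u' - u'') := by ring
  rw [e]
  refine (V.map_add _ _).trans_lt (max_lt ?_ h2)
  rw [← v2e_sim_val h2]
  exact h1

theorem v2e_sim_prod (s : Multiset K) (x x' : K) (h : ∀ β ∈ s, v2eSim V (x - β) (x' - β)) :
    v2eSim V (s.map (x - ·)).prod (s.map (x' - ·)).prod := by
  induction s using Multiset.induction_on with
  | empty => simpa using v2e_sim_refl (V := V) one_ne_zero
  | cons β s ih =>
    rw [Multiset.map_cons, Multiset.map_cons, Multiset.prod_cons, Multiset.prod_cons]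
    exact v2e_sim_mul (h β (Multiset.mem_cons_self _ _))
      (ih fun γ hγ => h γ (Multiset.mem_cons_of_mem hγ))

end v2eSim

/-- (i): a point which is not a pseudo-limit is eventually far from the sequence -/
theorem v2e_far (A : Ambient v) (a : ℕ → A.Ω) (δ : ℕ → ℚᵐ⁰)
    (had : ∀ n m, n ≤ m → A.V (a m - a n) ≤ A.j (δ n)) (y : A.Ω)
    (hy : ∀ n, A.V (y - a n) ≤ A.j (δ n)) (β : A.Ω) (hβ : ¬ ∀ n, A.V (β - a n) ≤ A.j (δ n)) :
    ∃ n0, ∀ n, n0 ≤ n → v2eSim A.V (y - β) (a n - β) := by
  push Not at hβ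
  obtain ⟨n0, hn0⟩ := hβ
  refine ⟨n0, fun n hn => ?_⟩
  unfold v2eSim
  have e1 : y - β - (a n - β) = (y - a n0) - (a n - a n0) := by ring
  have h1 : A.V (y - β - (a n - β)) ≤ A.j (δ n0) := by
    rw [e1]
    exact (A.V.map_sub _ _).trans (max_le (hy n0) (had n0 n hn))
  have e2 : a n - β = (a n - a n0) - (β - a n0) := by ring
  have h2 : A.V (a n - β) = A.V (β - a n0) := by
    rw [e2]
    exact Valuation.map_sub_eq_of_lt_right A.V ((had n0 n hn).trans_lt hn0)
  rw [h2]
  exact h1.trans_lt hn0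

theorem v2e_far_multiset (A : Ambient v) (a : ℕ → A.Ω) (δ : ℕ → ℚᵐ⁰)
    (had : ∀ n m, n ≤ m → A.V (a m - a n) ≤ A.j (δ n)) (y : A.Ω)
    (hy : ∀ n, A.V (y - a n) ≤ A.j (δ n)) (s : Multiset A.Ω)
    (hs : ∀ β ∈ s, ¬ ∀ n, A.V (β - a n) ≤ A.j (δ n)) :
    ∃ n0, ∀ n, n0 ≤ n → ∀ β ∈ s, v2eSim A.V (y - β) (a n - β) := by
  induction s using Multiset.induction_on with
  | empty => exact ⟨0, fun n _ β hβ => absurd hβ (Multiset.notMem_zero β)⟩
  | cons β s ih =>
    obtain ⟨n1, h1⟩ := ih fun γ hγ => hs γ (Multiset.mem_cons_of_mem hγ)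
    obtain ⟨n2, h2⟩ := v2e_far A a δ had y hy β (hs β (Multiset.mem_cons_self _ _))
    refine ⟨max n1 n2, fun n hn γ hγ => ?_⟩
    rcases Multiset.mem_cons.1 hγ with rfl | hγ
    · exact h2 n (le_trans (le_max_right _ _) hn)
    · exact h1 n (le_trans (le_max_left _ _) hn) γ hγ

/-- (iii): a polynomial without root among the pseudo-limits -/
theorem v2e_poly (A : Ambient v) (a : ℕ → A.Ω) (δ : ℕ → ℚᵐ⁰)
    (had : ∀ n m, n ≤ m → A.V (a m - a n) ≤ A.j (δ n)) (y : A.Ω)
    (hy : ∀ n, A.V (y - a n) ≤ A.j (δ n)) {M : IntermediateField L A.Ω} (f : Polynomial M) (hf : f ≠ 0)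
    (hroot : ∀ β : A.Ω, (∀ n, A.V (β - a n) ≤ A.j (δ n)) → Polynomial.aeval β f ≠ 0) :
    ∃ n0, ∀ n, n0 ≤ n → v2eSim A.V (Polynomial.aeval y f) (Polynomial.aeval (a n) f) := by
  have := A.algClosed
  have hg0 : f.map (algebraMap M A.Ω) ≠ 0 := Polynomial.map_ne_zero hf
  have hs : (f.map (algebraMap M A.Ω)).Splits := IsAlgClosed.splits _
  obtain ⟨n0, hn0⟩ := v2e_far_multiset A a δ had y hy (f.map (algebraMap M A.Ω)).roots (by
    intro β hβ hPL
    refine hroot β hPL ?_
    rw [← Polynomial.eval_map_algebraMap]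
    exact (Polynomial.mem_roots hg0).1 hβ)
  refine ⟨n0, fun n hn => ?_⟩
  rw [← Polynomial.eval_map_algebraMap, ← Polynomial.eval_map_algebraMap, hs.eval_eq_prod_roots,
    hs.eval_eq_prod_roots]
  exact v2e_sim_mul (v2e_sim_refl (Polynomial.leadingCoeff_ne_zero.2 hg0)) (v2e_sim_prod _ _ _ (hn0 n hn))

/-- reduction of a polynomial to one without root among the pseudo-limits -/
theorem v2e_reduce (A : Ambient v) {M : IntermediateField L A.Ω} (a : ℕ → A.Ω) (δ : ℕ → ℚᵐ⁰) (y : A.Ω)
    (hmin : ∀ β : A.Ω, (∀ n, A.V (β - a n) ≤ A.j (δ n)) → ∀ f : Polynomial M, f ≠ 0 →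
      Polynomial.aeval β f = 0 → IsAlgebraic M y ∧ (minpoly M y).natDegree ≤ f.natDegree)
    (f : Polynomial M) (hf : Polynomial.aeval y f ≠ 0) :
    ∃ f' : Polynomial M, f' ≠ 0 ∧ Polynomial.aeval y f' = Polynomial.aeval y f ∧
      ∀ β : A.Ω, (∀ n, A.V (β - a n) ≤ A.j (δ n)) → Polynomial.aeval β f' ≠ 0 := by
  by_cases halg : IsAlgebraic M y
  · have hint : IsIntegral M y := halg.isIntegral
    have he : Polynomial.aeval y (f %ₘ minpoly M y) = Polynomial.aeval y f :=
      Polynomial.aeval_modByMonic_eq_self_of_root (minpoly.aeval M y)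
    have h0 : f %ₘ minpoly M y ≠ 0 := by
      intro h
      rw [h, map_zero] at he
      exact hf he.symm
    refine ⟨f %ₘ minpoly M y, h0, he, fun β hβ hr => ?_⟩
    have h1 := (hmin β hβ _ h0 hr).2
    have h2 := Polynomial.natDegree_modByMonic_lt f (minpoly.monic hint) (minpoly.ne_one M y)
    omega
  · have h0 : f ≠ 0 := by
      rintro rfl
      simp at hf
    exact ⟨f, h0, rfl, fun β hβ hr => halg (hmin β hβ f h0 hr).1⟩

/-- adjoining a pseudo-limit of minimal degree gives an immediate extension -/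
theorem Ambient.isImm_adjoin (A : Ambient v) {M : IntermediateField L A.Ω} (hM : A.IsImm M)
    (a : ℕ → A.Ω) (ha : ∀ n, a n ∈ M) (δ : ℕ → ℚᵐ⁰)
    (had : ∀ n m, n ≤ m → A.V (a m - a n) ≤ A.j (δ n)) (y : A.Ω)
    (hy : ∀ n, A.V (y - a n) ≤ A.j (δ n))
    (hmin : ∀ β : A.Ω, (∀ n, A.V (β - a n) ≤ A.j (δ n)) → ∀ f : Polynomial M, f ≠ 0 →
      Polynomial.aeval β f = 0 → IsAlgebraic M y ∧ (minpoly M y).natDegree ≤ f.natDegree) :
    A.IsImm (M ⊔ IntermediateField.adjoin L {y}) := by
  intro z hz hz0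
  rw [← IntermediateField.restrictScalars_adjoin_eq_sup, IntermediateField.mem_restrictScalars,
    IntermediateField.mem_adjoin_simple_iff] at hz
  obtain ⟨f, g, rfl⟩ := hz
  have hf0 : Polynomial.aeval y f ≠ 0 := fun h => hz0 (by rw [h, zero_div])
  have hg0 : Polynomial.aeval y g ≠ 0 := fun h => hz0 (by rw [h, div_zero])
  obtain ⟨f', hf', hfe, hfr⟩ := v2e_reduce A a δ y hmin f hf0
  obtain ⟨g', hg', hge, hgr⟩ := v2e_reduce A a δ y hmin g hg0
  obtain ⟨n1, h1⟩ := v2e_poly A a δ had y hy f' hf' hfr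
  obtain ⟨n2, h2⟩ := v2e_poly A a δ had y hy g' hg' hgr
  have hs1 := h1 (max n1 n2) (le_max_left _ _)
  have hs2 := h2 (max n1 n2) (le_max_right _ _)
  rw [hfe] at hs1
  rw [hge] at hs2
  have hs : v2eSim A.V (Polynomial.aeval y f / Polynomial.aeval y g)
      (Polynomial.aeval (a (max n1 n2)) f' / Polynomial.aeval (a (max n1 n2)) g') := by
    rw [div_eq_mul_inv, div_eq_mul_inv]
    exact v2e_sim_mul hs1 (v2e_sim_inv hs2)
  have hmem : ∀ h : Polynomial M, Polynomial.aeval (a (max n1 n2)) h ∈ M := by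
    intro h
    have e : Polynomial.aeval (a (max n1 n2)) h
        = ((Polynomial.aeval (⟨a (max n1 n2), ha _⟩ : M) h : M) : A.Ω) := by
      have := Polynomial.aeval_algebraMap_apply A.Ω (⟨a (max n1 n2), ha _⟩ : M) h
      exact this
    rw [e]
    exact SetLike.coe_mem _
  have hz'M : Polynomial.aeval (a (max n1 n2)) f' / Polynomial.aeval (a (max n1 n2)) g' ∈ M :=
    div_mem (hmem f') (hmem g')
  have hz'0 : Polynomial.aeval (a (max n1 n2)) f' / Polynomial.aeval (a (max n1 n2)) g' ≠ 0 :=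
    (Valuation.pos_iff A.V).1 (v2e_sim_pos hs)
  obtain ⟨c, hc⟩ := hM _ hz'M hz'0
  refine ⟨c, ?_⟩
  have e : Polynomial.aeval y f / Polynomial.aeval y g - algebraMap L A.Ω c
      = (Polynomial.aeval y f / Polynomial.aeval y g
          - Polynomial.aeval (a (max n1 n2)) f' / Polynomial.aeval (a (max n1 n2)) g')
        + (Polynomial.aeval (a (max n1 n2)) f' / Polynomial.aeval (a (max n1 n2)) g' - algebraMap L A.Ω c) := by
    ring
  rw [e, v2e_sim_val hs]
  exact (A.V.map_add _ _).trans_lt (max_lt hs hc)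

end Claimed.Agent.R280
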