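import Claimed.Agent.R280.Val.Defs

/-!
# Row 280, package Val2k (`Val/V2Card.lean`, ~250 lines): the cardinality bound `#L ≤ (max #F ℵ₀) ^ ℵ₀`  (Krull; Gravett's proof)

For `γ ∈ ℚᵐ⁰ ∖ 0` let `x ≈_γ y :↔ v (x - y) ≤ γ` (an equivalence relation), `rep γ x := Quotient.out` of the class of `x` (so `v (x - rep γ x) ≤ γ`, and `rep γ x = rep γ y` if `x ≈_γ y`);
`t γ` an element of value `γ` if there is one, `1` otherwise.  `Φ x γ := r.res ((x - rep γ x) / t γ) ∈ F`.  `Φ : L → (ℚᵐ⁰ → F)` is injective: for `x ≠ y` take `γ = v (x - y)`; `rep γ x = rep γ y =: c`,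
`(x - c)/t - (y - c)/t = (x - y)/t` has value `1`, both are integral, so their residues differ (`ResMap.ker`, additivity of `toHom`).
`#(ℚᵐ⁰ → F) = #F ^ ℵ₀ ≤ (max #F ℵ₀) ^ ℵ₀` (`Cardinal.mk_le_of_injective`, `Cardinal.power_le_power_right`, `ℚᵐ⁰` countable infinite... `Cardinal.mk_le_aleph0` suffices with `Cardinal.power_le_power_left`).

Owner of the statement: helper129.  Proof: helper255 (helper names `v2c*`).
-/

set_option autoImplicit false

namespace Claimed.Agent.R280

open Cardinal WithZero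

/-- the relation `v (x - y) ≤ γ` -/
def v2cSetoid {L : Type} [Field L] (v : Valuation L ℚᵐ⁰) (γ : ℚᵐ⁰) : Setoid L where
  r x y := v (x - y) ≤ γ
  iseqv :=
    { refl := fun x => by simp
      symm := fun {x y} h => by rw [Valuation.map_sub_swap]; exact h
      trans := fun {x y z} h h' => by
        have e : x - z = (x - y) + (y - z) := by ring
        rw [e]
        exact (v.map_add _ _).trans (max_le h h') }

/-- a representative of the ball of radius `γ` around `x` -/
noncomputable def v2cRep {L : Type} [Field L] (v : Valuation L ℚᵐ⁰) (γ : ℚᵐ⁰) (x : L) : L :=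
  (Quotient.mk (v2cSetoid v γ) x).out

theorem v2c_rep_spec {L : Type} [Field L] (v : Valuation L ℚᵐ⁰) (γ : ℚᵐ⁰) (x : L) :
    v (x - v2cRep v γ x) ≤ γ := by
  have h : (v2cSetoid v γ).r (v2cRep v γ x) x := Quotient.exact (Quotient.out_eq _)
  rw [Valuation.map_sub_swap]
  exact h

theorem v2c_rep_eq {L : Type} [Field L] (v : Valuation L ℚᵐ⁰) (γ : ℚᵐ⁰) {x y : L} (h : v (x - y) ≤ γ) :
    v2cRep v γ x = v2cRep v γ y := by
  unfold v2cRep
  rw [Quotient.sound (s := v2cSetoid v γ) (show (v2cSetoid v γ).r x y from h)]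

open Classical in
/-- an element of value `γ` -/
noncomputable def v2cT {L : Type} [Field L] (v : Valuation L ℚᵐ⁰) (γ : ℚᵐ⁰) : L :=
  if h : ∃ t, v t = γ then h.choose else 1

theorem v2c_t_spec {L : Type} [Field L] (v : Valuation L ℚᵐ⁰) (t : L) : v (v2cT v (v t)) = v t := by
  have h : ∃ t', v t' = v t := ⟨t, rfl⟩
  unfold v2cT
  rw [dif_pos h]
  exact h.choose_spec

theorem v2c_res_eq_imp {L F : Type} [Field L] [Field F] {v : Valuation L ℚᵐ⁰} (r : ResMap v F) {a b : L}
    (ha : v a ≤ 1) (hb : v b ≤ 1) (h : r.res a = r.res b) : v (a - b) < 1 := by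
  unfold ResMap.res at h
  rw [dif_pos ha, dif_pos hb, ← sub_eq_zero, ← map_sub, r.ker] at h
  exact h

/-- cardinality bound -/
theorem card_le_of_resMap {L F : Type} [Field L] [Field F] (v : Valuation L ℚᵐ⁰) (r : ResMap v F) :
    #L ≤ (max #F ℵ₀) ^ ℵ₀ := by
  have hinj : Function.Injective
      (fun (x : L) (γ : ℚᵐ⁰) => r.res ((x - v2cRep v γ x) / v2cT v γ)) := by
    intro x y hxy
    by_contra hne
    have h0 : x - y ≠ 0 := sub_ne_zero.2 hne
    have hγ0 : v (x - y) ≠ 0 := (Valuation.ne_zero_iff v).2 h0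
    have hγ := congrFun hxy (v (x - y))
    simp only at hγ
    have ht := v2c_t_spec v (x - y)
    rw [v2c_rep_eq v (v (x - y)) (le_refl (v (x - y)))] at hγ
    have hx : v (x - v2cRep v (v (x - y)) y) ≤ v (x - y) := by
      rw [← v2c_rep_eq v (v (x - y)) (le_refl (v (x - y)))]
      exact v2c_rep_spec v _ x
    have hy : v (y - v2cRep v (v (x - y)) y) ≤ v (x - y) := v2c_rep_spec v _ y
    have hdiv : ∀ z : L, v z ≤ v (x - y) → v (z / v2cT v (v (x - y))) ≤ 1 := by
      intro z hz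
      rw [map_div₀, ht]
      exact div_le_one_of_le₀ hz zero_le
    have h1 := v2c_res_eq_imp r (hdiv _ hx) (hdiv _ hy) hγ
    have e : (x - v2cRep v (v (x - y)) y) / v2cT v (v (x - y)) - (y - v2cRep v (v (x - y)) y) / v2cT v (v (x - y))
        = (x - y) / v2cT v (v (x - y)) := by ring
    rw [e, map_div₀, ht, div_self hγ0] at h1
    exact lt_irrefl _ h1
  have hc0 : Countable (Multiplicative ℚ) := inferInstanceAs (Countable ℚ)
  have hc : Countable ℚᵐ⁰ := inferInstanceAs (Countable (Option (Multiplicative ℚ)))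
  calc #L ≤ #(ℚᵐ⁰ → F) := Cardinal.mk_le_of_injective hinj
    _ = #F ^ #ℚᵐ⁰ := by rw [Cardinal.power_def]
    _ ≤ (max #F ℵ₀) ^ #ℚᵐ⁰ := Cardinal.power_le_power_right (le_max_left _ _)
    _ ≤ (max #F ℵ₀) ^ ℵ₀ :=
      Cardinal.power_le_power_left (fun h => by
        have : ℵ₀ ≤ max #F ℵ₀ := le_max_right _ _
        rw [h] at this
        exact absurd this (not_le.2 Cardinal.aleph0_pos)) Cardinal.mk_le_aleph0

end Claimed.Agent.R280
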