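import Claimed.Agent.R280.Val.V2Amb

/-!
# Row 280, package Val2 (`Val/V2Sph.lean`): a spherically complete immediate extension: glue (everything here is proved)

    exists_sph ⇐ exists_ambient (Val2a) + Ambient.exists_maximal (Val2b) + IsImm.exists_val (Val2c) + exists_pc_of_not_sph (Val2d) + Ambient.isImm_adjoin (Val2e)
-/

set_option autoImplicit false

namespace Claimed.Agent.R280

open WithZero

variable {L : Type} [Field L] {v : Valuation L ℚᵐ⁰}

theorem Ambient.not_maximal_of_pc (A : Ambient v) {M : IntermediateField L A.Ω} (hM : A.IsImm M)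
    (a : ℕ → A.Ω) (ha : ∀ n, a n ∈ M) (δ : ℕ → ℚᵐ⁰)
    (had : ∀ n m, n < m → A.V (a m - a n) = A.j (δ n))
    (hno : ¬ ∃ z ∈ M, ∀ n, A.V (z - a n) ≤ A.j (δ n)) : ∃ M', A.IsImm M' ∧ M ≤ M' ∧ M' ≠ M := by
  classical
  have had' : ∀ n m, n ≤ m → A.V (a m - a n) ≤ A.j (δ n) := by
    intro n m h
    rcases h.eq_or_lt with rfl | h
    · simp
    · exact (had n m h).le
  have key : ∃ y : A.Ω, (∀ n, A.V (y - a n) ≤ A.j (δ n)) ∧
      ∀ β : A.Ω, (∀ n, A.V (β - a n) ≤ A.j (δ n)) → ∀ f : Polynomial M, f ≠ 0 →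
        Polynomial.aeval β f = 0 → IsAlgebraic M y ∧ (minpoly M y).natDegree ≤ f.natDegree := by
    by_cases halg : ∃ d : ℕ, ∃ β : A.Ω, (∀ n, A.V (β - a n) ≤ A.j (δ n)) ∧ IsAlgebraic M β ∧
        (minpoly M β).natDegree = d
    · obtain ⟨y, hy, hyalg, hyd⟩ := Nat.find_spec halg
      refine ⟨y, hy, fun β hβ f hf0 hf => ⟨hyalg, ?_⟩⟩
      have h1 : Nat.find halg ≤ (minpoly M β).natDegree :=
        Nat.find_min' halg ⟨β, hβ, ⟨f, hf0, hf⟩, rfl⟩
      rw [hyd]
      exact h1.trans (Polynomial.natDegree_le_of_dvd (minpoly.dvd M β hf) hf0)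
    · obtain ⟨y, hy⟩ := A.sat a δ had'
      refine ⟨y, hy, fun β hβ f hf0 hf => ?_⟩
      exact absurd ⟨_, β, hβ, ⟨f, hf0, hf⟩, rfl⟩ halg
  obtain ⟨y, hy, hmin⟩ := key
  refine ⟨M ⊔ IntermediateField.adjoin L {y}, A.isImm_adjoin hM a ha δ had' y hy hmin, le_sup_left,
    fun h => hno ⟨y, ?_, hy⟩⟩
  rw [← h]
  exact (le_sup_right : IntermediateField.adjoin L {y} ≤ _)
    (IntermediateField.mem_adjoin_simple_self L y)

/-- a spherically complete immediate extension -/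
theorem exists_sph {L F : Type} [Field L] [Field F] (v : Valuation L ℚᵐ⁰) (r : ResMap v F)
    (_hv : Function.Surjective v) :
    ∃ (L' : Type) (_ : Field L') (_ : Algebra L L') (v' : Valuation L' ℚᵐ⁰) (r' : ResMap v' F),
      ValExt v' v ∧ ResExt r' r ∧ IsSphComplete v' := by
  obtain ⟨A⟩ := exists_ambient v
  obtain ⟨M, hM, hmax⟩ := A.exists_maximal
  obtain ⟨vM, rM, hV, hext, hres⟩ := hM.exists_val r
  refine ⟨M, inferInstance, inferInstance, vM, rM, hext, hres, ?_⟩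
  by_contra hns
  obtain ⟨a, δ, -, -, had, hno⟩ := exists_pc_of_not_sph vM hns
  obtain ⟨M', hM', hle, hne⟩ := A.not_maximal_of_pc hM (fun n => (a n : A.Ω)) (fun n => (a n).2) δ
    (fun n m h => by
      rw [← had n m h, ← hV]
      rfl)
    (by
      rintro ⟨z, hz, hzn⟩
      refine hno ⟨⟨z, hz⟩, fun n => ?_⟩
      have h1 := hzn n
      have h2 : A.V (z - (a n : A.Ω)) = A.j (vM (⟨z, hz⟩ - a n)) := by
        rw [← hV]
        rfl
      rw [h2] at h1
      exact A.j_mono.le_iff_le.1 h1)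
  exact hne (hmax M' hM' hle)

end Claimed.Agent.R280
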