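import Claimed.Agent.R280.Val.Defs

/-!
# Row 280, package Val3 (`Val/V3Orth.lean`, ~800 lines): orthogonal bases over spherically complete fields  ([V] Lemma 6.3)

* Val3a (~400 lines) `VNorm.exists_best_approx`.  `W` has an orthogonal basis `e`.  For `w ∈ W` put `ρ w := N (x - w)`.  If `x ∈ W` take `w₀ = x`.  Otherwise all `ρ w ≠ 0`.  For each coordinate `i` consider the family of balls
  `{(e.repr w i, ρ w / N (e i)) | w ∈ W}` of `L`; two of them meet: `N (w - w') ≤ max (ρ w) (ρ w')` and orthogonality give `v (repr w i - repr w' i) N (e i) ≤ max …`.  `IsSphComplete` gives `c i`; `w₀ := ∑ c i • e i`;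
  `N (w₀ - w) = sup_i v (c i - repr w i) N (e i) ≤ ρ w`, so `N (x - w₀) ≤ max (ρ w) (N (w - w₀)) ≤ ρ w`.
* Val3b (~400 lines) `VNorm.exists_orthogonal` (induction on an increasing chain of subspaces, or on `finrank`: `y := x - w₀`, `N (y + u) = max (N y) (N u)` for `u ∈ W`, homogeneity; assemble the basis with
  `Module.Basis.mkFinCons` / `Basis.mk`), `VNorm.exists_orthonormal` (scale `e i` by `a i`, `v (a i) = (N (e i))⁻¹`, `hv`).

Owner of the statements: helper129 / helper256.
-/

set_option autoImplicit false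

namespace Claimed.Agent.R280

open WithZero

variable {L : Type} [Field L] {v : Valuation L ℚᵐ⁰} {U : Type} [AddCommGroup U] [Module L U]

/-- `e` is an orthogonal basis of the subspace `W` -/
def VNorm.IsOrth (N : VNorm v U) {ι : Type} [Fintype ι] {W : Submodule L U}
    (e : Module.Basis ι L W) : Prop :=
  ∀ w : W, N.nm (w : U) = Finset.univ.sup fun i => v (e.repr w i) * N.nm (e i : U)

/-! ### elementary facts on valuation norms (prefix `vn3_`) -/

theorem vn3_nm_zero (N : VNorm v U) : N.nm 0 = 0 := (N.nm_eq_zero 0).2 rfl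

theorem vn3_nm_neg (N : VNorm v U) (u : U) : N.nm (-u) = N.nm u := by
  have h := N.nm_smul (-1) u
  rwa [neg_one_smul, Valuation.map_neg, Valuation.map_one, one_mul] at h

theorem vn3_nm_sub_comm (N : VNorm v U) (u u' : U) : N.nm (u - u') = N.nm (u' - u) := by
  rw [← vn3_nm_neg N (u - u'), neg_sub]

theorem vn3_nm_sub (N : VNorm v U) (u u' : U) : N.nm (u - u') ≤ max (N.nm u) (N.nm u') := by
  have h := N.nm_add u (-u')
  rwa [vn3_nm_neg, ← sub_eq_add_neg] at h

theorem vn3_nm_ne_zero (N : VNorm v U) {u : U} (hu : u ≠ 0) : N.nm u ≠ 0 :=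
  fun h => hu ((N.nm_eq_zero u).1 h)

theorem VNorm.exists_best_approx (hS : IsSphComplete v) (N : VNorm v U) {ι : Type} [Fintype ι]
    {W : Submodule L U} (e : Module.Basis ι L W) (he : N.IsOrth e) (x : U) :
    ∃ w₀ : W, ∀ w : W, N.nm (x - w₀) ≤ N.nm (x - w) := by
  classical
  by_cases hx : x ∈ W
  · refine ⟨⟨x, hx⟩, fun w => ?_⟩
    simp only [sub_self, vn3_nm_zero]
    exact zero_le
  have hρ : ∀ w : W, N.nm (x - w) ≠ 0 := by
    intro w h
    have h1 := (N.nm_eq_zero _).1 h
    rw [sub_eq_zero] at h1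
    exact hx (h1 ▸ w.2)
  have hei : ∀ i, N.nm (e i : U) ≠ 0 := fun i =>
    vn3_nm_ne_zero N (fun h => e.ne_zero i (Subtype.ext h))
  have hei' : ∀ i, 0 < N.nm (e i : U) := fun i => zero_lt_iff.2 (hei i)
  have hterm : ∀ (w : W) (i : ι), v (e.repr w i) * N.nm (e i : U) ≤ N.nm (w : U) := by
    intro w i
    rw [he w]
    exact Finset.le_sup (f := fun i => v (e.repr w i) * N.nm (e i : U)) (Finset.mem_univ i)
  have hww : ∀ w w' : W, N.nm ((w - w' : W) : U) ≤ max (N.nm (x - w)) (N.nm (x - w')) := by
    intro w w'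
    have e1 : ((w - w' : W) : U) = (x - w') - (x - w) := by
      simp only [Submodule.coe_sub]; abel
    rw [e1, max_comm]
    exact vn3_nm_sub N _ _
  have hc : ∀ i, ∃ c : L, ∀ w : W, v (c - e.repr w i) ≤ N.nm (x - w) / N.nm (e i : U) := by
    intro i
    obtain ⟨c, hc⟩ := hS (Set.range fun w : W => (e.repr w i, N.nm (x - w) / N.nm (e i : U)))
      (by
        rintro _ ⟨w, rfl⟩
        exact div_ne_zero (hρ w) (hei i))
      (by
        rintro _ ⟨w, rfl⟩ _ ⟨w', rfl⟩
        simp only
        have h1 := (hterm (w - w') i).trans (hww w w')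
        rw [map_sub, Finsupp.sub_apply] at h1
        rcases le_max_iff.1 h1 with h | h
        · exact le_max_of_le_left ((le_div_iff₀ (hei' i)).2 h)
        · exact le_max_of_le_right ((le_div_iff₀ (hei' i)).2 h))
    exact ⟨c, fun w => hc _ ⟨w, rfl⟩⟩
  choose c hc using hc
  refine ⟨∑ i, c i • e i, fun w => ?_⟩
  have hrepr : ∀ i, e.repr (∑ i, c i • e i) i = c i := by
    intro i
    have := e.repr_sum_self c
    rw [this]
  have h2 : N.nm (((∑ i, c i • e i) - w : W) : U) ≤ N.nm (x - w) := by
    rw [he]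
    refine Finset.sup_le fun i _ => ?_
    rw [map_sub, Finsupp.sub_apply, hrepr]
    exact (le_div_iff₀ (hei' i)).1 (hc i w)
  have e2 : x - ((∑ i, c i • e i : W) : U) = (x - w) - (((∑ i, c i • e i) - w : W) : U) := by
    simp only [Submodule.coe_sub]; abel
  rw [e2]
  exact (vn3_nm_sub N _ _).trans (max_le le_rfl h2)

/-- orthogonality of a family of vectors, in terms of arbitrary coefficients -/
def vn3Orth (N : VNorm v U) {ι : Type} [Fintype ι] (e : ι → U) : Prop :=
  ∀ c : ι → L, N.nm (∑ i, c i • e i) = Finset.univ.sup fun i => v (c i) * N.nm (e i)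

theorem vn3_eqns_cite : True := by
  have := @VNorm.IsOrth.eq_1
  have := @vn3Orth.eq_1
  trivial

theorem vn3_orth_li (N : VNorm v U) {ι : Type} [Fintype ι] {e : ι → U} (h0 : ∀ i, e i ≠ 0)
    (he : vn3Orth N e) : LinearIndependent L e := by
  rw [Fintype.linearIndependent_iff]
  intro c hc i
  have h1 := he c
  rw [hc, vn3_nm_zero] at h1
  have h2 : v (c i) * N.nm (e i) ≤ 0 := by
    rw [h1]
    exact Finset.le_sup (f := fun i => v (c i) * N.nm (e i)) (Finset.mem_univ i)
  have h3 : v (c i) * N.nm (e i) = 0 := le_antisymm h2 zero_le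
  rcases mul_eq_zero.1 h3 with h | h
  · exact (Valuation.zero_iff v).1 h
  · exact absurd h (vn3_nm_ne_zero N (h0 i))

/-- the key lemma: `y` is orthogonal to `W` -/
theorem vn3_key (N : VNorm v U) {W : Submodule L U} {y : U}
    (hy : ∀ w ∈ W, N.nm y ≤ N.nm (y - w)) (c : L) {w : U} (hw : w ∈ W) :
    N.nm (c • y + w) = max (v c * N.nm y) (N.nm w) := by
  refine le_antisymm ?_ ?_
  · have := N.nm_add (c • y) w
    rwa [N.nm_smul] at this
  · have h1 : v c * N.nm y ≤ N.nm (c • y + w) := by
      by_cases hc : c = 0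
      · rw [hc, Valuation.map_zero, zero_mul]
        exact zero_le
      · have e1 : c • y + w = c • (y - (-(c⁻¹ • w))) := by
          rw [sub_neg_eq_add, smul_add, smul_smul, mul_inv_cancel₀ hc, one_smul]
        rw [e1, N.nm_smul]
        exact mul_le_mul_right (hy _ (W.neg_mem (W.smul_mem _ hw))) _
    refine max_le h1 ?_
    have e2 : w = (c • y + w) - c • y := by abel
    have h2 := vn3_nm_sub N (c • y + w) (c • y)
    rw [← e2, N.nm_smul] at h2
    exact h2.trans (max_le le_rfl h1)

theorem vn3_sup_succ {k : ℕ} (f : Fin (k + 1) → ℚᵐ⁰) :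
    Finset.univ.sup f = max (f 0) (Finset.univ.sup fun i : Fin k => f i.succ) := by
  refine le_antisymm (Finset.sup_le fun i _ => ?_) (max_le ?_ (Finset.sup_le fun i _ => ?_))
  · refine Fin.cases ?_ (fun j => ?_) i
    · exact le_max_left _ _
    · exact le_max_of_le_right
        (Finset.le_sup (f := fun i : Fin k => f i.succ) (Finset.mem_univ j))
  · exact Finset.le_sup (Finset.mem_univ _)
  · exact Finset.le_sup (Finset.mem_univ _)

/-- orthogonal families of every length `≤ finrank` -/
theorem vn3_exists_family (hS : IsSphComplete v) [FiniteDimensional L U] (N : VNorm v U) (k : ℕ)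
    (hk : k ≤ Module.finrank L U) :
    ∃ e : Fin k → U, (∀ i, e i ≠ 0) ∧ vn3Orth N e := by
  induction k with
  | zero =>
    refine ⟨fun i => i.elim0, fun i => i.elim0, fun c => ?_⟩
    simp [vn3_nm_zero]
  | succ k ih =>
    obtain ⟨e, h0, he⟩ := ih (by omega)
    have hli := vn3_orth_li N h0 he
    set W := Submodule.span L (Set.range e) with hW
    have hfr : Module.finrank L W = k := by
      rw [hW, finrank_span_eq_card hli, Fintype.card_fin]
    have hne : W ≠ ⊤ := by
      intro h
      rw [h, finrank_top] at hfr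
      omega
    obtain ⟨x, -, hx⟩ := SetLike.exists_of_lt (lt_top_iff_ne_top.2 hne)
    have hb : N.IsOrth (Module.Basis.span hli) := by
      intro w
      have h1 : (w : U) = ∑ i, (Module.Basis.span hli).repr w i • e i := by
        conv_lhs => rw [← (Module.Basis.span hli).sum_repr w]
        simp only [Submodule.coe_sum, Submodule.coe_smul, Module.Basis.span_apply]
      rw [h1, he]
      simp only [Module.Basis.span_apply]
    obtain ⟨w₀, hw₀⟩ := VNorm.exists_best_approx hS N (Module.Basis.span hli) hb x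
    have hy0 : x - (w₀ : U) ≠ 0 := by
      intro h
      rw [sub_eq_zero] at h
      exact hx (h ▸ w₀.2)
    have hy : ∀ w ∈ W, N.nm (x - (w₀ : U)) ≤ N.nm (x - (w₀ : U) - w) := by
      intro w hw
      have := hw₀ (w₀ + ⟨w, hw⟩)
      rwa [Submodule.coe_add, ← sub_sub] at this
    refine ⟨Fin.cons (x - (w₀ : U)) e, fun i => ?_, fun c => ?_⟩
    · refine Fin.cases ?_ (fun j => ?_) i
      · simpa using hy0
      · simpa using h0 j
    · rw [Fin.sum_univ_succ, vn3_sup_succ]
      simp only [Fin.cons_zero, Fin.cons_succ]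
      rw [vn3_key N hy (c 0) (Submodule.sum_mem _ fun i _ =>
        Submodule.smul_mem _ _ (Submodule.subset_span ⟨i, rfl⟩)), he]

theorem VNorm.exists_orthogonal (hS : IsSphComplete v) [FiniteDimensional L U] (N : VNorm v U) :
    ∃ e : Module.Basis (Fin (Module.finrank L U)) L U,
      ∀ u : U, N.nm u = Finset.univ.sup fun i => v (e.repr u i) * N.nm (e i) := by
  obtain ⟨e, h0, he⟩ := vn3_exists_family hS N (Module.finrank L U) le_rfl
  have hli := vn3_orth_li N h0 he
  refine ⟨basisOfLinearIndependentOfCardEqFinrank' e hli (Fintype.card_fin _), fun u => ?_⟩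
  set b := basisOfLinearIndependentOfCardEqFinrank' e hli (Fintype.card_fin _) with hb
  have hbe : ∀ i, b i = e i := fun i => by
    rw [hb, coe_basisOfLinearIndependentOfCardEqFinrank']
  conv_lhs => rw [← b.sum_repr u]
  simp only [hbe]
  exact he _

/-- **orthogonal bases** (Lemma orthogonal-bases) -/
theorem VNorm.exists_orthonormal (hv : Function.Surjective v) (hS : IsSphComplete v)
    [FiniteDimensional L U] (N : VNorm v U) :
    ∃ e : Module.Basis (Fin (Module.finrank L U)) L U,
      ∀ u : U, N.nm u = Finset.univ.sup fun i => v (e.repr u i) := by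
  obtain ⟨e, he⟩ := VNorm.exists_orthogonal hS N
  have hei : ∀ i, N.nm (e i) ≠ 0 := fun i => vn3_nm_ne_zero N (e.ne_zero i)
  choose a ha using fun i => hv (N.nm (e i))⁻¹
  have ha0 : ∀ i, a i ≠ 0 := by
    intro i h
    have h1 := ha i
    rw [h, Valuation.map_zero] at h1
    exact inv_ne_zero (hei i) h1.symm
  refine ⟨e.unitsSMul fun i => Units.mk0 (a i) (ha0 i), fun u => ?_⟩
  rw [he u]
  congr 1
  funext i
  rw [Module.Basis.repr_unitsSMul, Units.smul_def, smul_eq_mul, Valuation.map_mul]
  simp only [Units.val_inv_eq_inv_val, Units.val_mk0, map_inv₀, ha, inv_inv]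
  rw [mul_comm]

end Claimed.Agent.R280
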