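import Claimed.Agent.R280.Val.Defs

/-!
# Row 280, package Val4 (`Val/V4Res.lean`, ~900 lines): simultaneous residue approximation and the residue degree bound  ([V] Lemma 6.4; follow the paper's proof line by line)

* Val4a (~500 lines) `exists_separator` (`q_{ij} = 1 / (1 + c z)`; then `q_i = ∏_{j ≠ i} q_{ij}`), `simultaneous_residues` (`∑_i q_i ^ {N_i} b̃_i`).
  - `z`: `w i u ≠ w j u`, invert if necessary, multiply by `t ∈ T` of value strictly between (`hv`, density of `ℚ`): `w i z < 1 < w j z`.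
  - `c`: a unit of `T` whose residue avoids the finitely many values `- (res_ℓ z)⁻¹ ∈ k_ℓ` (for the `ℓ` with `w ℓ z = 1`); each condition excludes at most one element of `kT` because `kT → k_ℓ` is injective; here the map `kT → kw ℓ` is
    not given: argue with elements: if `c, c'` are units of `T` with `w ℓ (1 + c z) < 1` and `w ℓ (1 + c' z) < 1` then `v (c - c') < 1`.  `kT` infinite ⇒ choose among `#ι + 1` units with pairwise distinct residues.
* Val4b (~400 lines) `sum_residue_degree_le`: lifts of `kT`-independent families in the `kw i`, with zero residues at the other places, are `T`-independent (divide a relation by a coefficient of maximal value, reduce at a place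
  where a unit coefficient occurs).  So every finite independent family has `≤ [U:T]` elements: finiteness and the bound (`Module.finrank`, `LinearIndependent.fintype_card_le_finrank`, `Module.finite_of_…`/`rank` bounded).

Owner of the statements: helper129.
-/

set_option autoImplicit false

namespace Claimed.Agent.R280

open WithZero

section v4res

variable {K k : Type} [Field K] [Field k] {v : Valuation K ℚᵐ⁰} (r : ResMap v k)

theorem v4_res_mk {x : K} (h : v x ≤ 1) :
    r.res x = r.toHom ⟨x, (Valuation.mem_valuationSubring_iff v x).2 h⟩ := dif_pos h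

theorem v4_res_add {x y : K} (hx : v x ≤ 1) (hy : v y ≤ 1) : r.res (x + y) = r.res x + r.res y := by
  have hxy : v (x + y) ≤ 1 := (v.map_add x y).trans (max_le hx hy)
  rw [v4_res_mk r hx, v4_res_mk r hy, v4_res_mk r hxy, ← map_add]
  rfl

theorem v4_res_mul {x y : K} (hx : v x ≤ 1) (hy : v y ≤ 1) : r.res (x * y) = r.res x * r.res y := by
  have hxy : v (x * y) ≤ 1 := by rw [map_mul]; exact mul_le_one' hx hy
  rw [v4_res_mk r hx, v4_res_mk r hy, v4_res_mk r hxy, ← map_mul]
  rfl

theorem v4_res_zero : r.res 0 = 0 := by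
  rw [v4_res_mk r (by simp : v (0 : K) ≤ 1)]
  exact map_zero r.toHom

theorem v4_res_one : r.res 1 = 1 := by
  rw [v4_res_mk r (by simp : v (1 : K) ≤ 1)]
  exact map_one r.toHom

theorem v4_res_eq_zero_iff {x : K} (hx : v x ≤ 1) : r.res x = 0 ↔ v x < 1 := by
  rw [v4_res_mk r hx, r.ker]

theorem v4_res_neg {x : K} (hx : v x ≤ 1) : r.res (-x) = - r.res x := by
  have hx' : v (-x) ≤ 1 := by rw [Valuation.map_neg]; exact hx
  rw [eq_neg_iff_add_eq_zero, ← v4_res_add r hx' hx, neg_add_cancel, v4_res_zero]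

theorem v4_res_sub {x y : K} (hx : v x ≤ 1) (hy : v y ≤ 1) : r.res (x - y) = r.res x - r.res y := by
  have hy' : v (-y) ≤ 1 := by rw [Valuation.map_neg]; exact hy
  rw [sub_eq_add_neg, v4_res_add r hx hy', v4_res_neg r hy, sub_eq_add_neg]

theorem v4_res_eq_of_sub_lt {x y : K} (hy : v y ≤ 1) (h : v (x - y) < 1) : r.res x = r.res y := by
  have hx : v x ≤ 1 := by
    have e : x = (x - y) + y := by ring
    rw [e]
    exact (v.map_add _ _).trans (max_le h.le hy)
  rw [← sub_eq_zero, ← v4_res_sub r hx hy, v4_res_eq_zero_iff r h.le]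
  exact h

theorem v4_exists_res (c : k) : ∃ x : K, v x ≤ 1 ∧ r.res x = c := by
  obtain ⟨x, rfl⟩ := r.surj c
  have hx : v (x : K) ≤ 1 := (Valuation.mem_valuationSubring_iff v _).1 x.2
  exact ⟨x, hx, v4_res_mk r hx⟩

theorem v4_sum_le_one {ι : Type} (s : Finset ι) (f : ι → K) (h : ∀ i ∈ s, v (f i) ≤ 1) :
    v (∑ i ∈ s, f i) ≤ 1 := Valuation.map_sum_le v h

theorem v4_res_sum {ι : Type} (s : Finset ι) (f : ι → K) (h : ∀ i ∈ s, v (f i) ≤ 1) :
    r.res (∑ i ∈ s, f i) = ∑ i ∈ s, r.res (f i) := by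
  classical
  induction s using Finset.induction_on with
  | empty => simpa using v4_res_zero r
  | insert a s ha ih =>
    rw [Finset.sum_insert ha, Finset.sum_insert ha,
      v4_res_add r (h a (Finset.mem_insert_self _ _))
        (v4_sum_le_one s f fun i hi => h i (Finset.mem_insert_of_mem hi)),
      ih fun i hi => h i (Finset.mem_insert_of_mem hi)]

end v4res

/-- `ℚᵐ⁰` is archimedean -/
theorem v4_pow_mul_lt_one {x : ℚᵐ⁰} (hx : x < 1) (y : ℚᵐ⁰) : ∃ N : ℕ, ∀ n, N ≤ n → x ^ n * y < 1 := by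
  by_cases hx0 : x = 0
  · refine ⟨1, fun n hn => ?_⟩
    rw [hx0, zero_pow (by omega), zero_mul]
    exact zero_lt_one
  by_cases hy0 : y = 0
  · exact ⟨0, fun n _ => by rw [hy0, mul_zero]; exact zero_lt_one⟩
  have hlx : x.log < 0 := by
    have := (log_lt_log hx0 one_ne_zero).2 hx
    simpa using this
  obtain ⟨N, hN⟩ := exists_nat_gt (y.log / (-x.log))
  refine ⟨N, fun n hn => ?_⟩
  rw [← log_lt_log (mul_ne_zero (pow_ne_zero _ hx0) hy0) one_ne_zero, log_mul (pow_ne_zero _ hx0) hy0,
    log_pow, log_one, nsmul_eq_mul]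
  have h1 : y.log < N * (-x.log) := by
    rwa [div_lt_iff₀ (by linarith)] at hN
  have h2 : (N : ℚ) ≤ n := by exact_mod_cast hn
  nlinarith

section v4sep

variable {T kT U : Type} [Field T] [Field kT] [Field U] [Algebra T U]

theorem v4_exists_z (v : Valuation T ℚᵐ⁰) (hv : Function.Surjective v) {wi wj : Valuation U ℚᵐ⁰}
    (hi : ValExt wi v) (hj : ValExt wj v) (hne : wi ≠ wj) : ∃ z : U, wi z < 1 ∧ 1 < wj z := by
  have h1 : ∃ u : U, wi u < wj u := by
    obtain ⟨u, hu⟩ := DFunLike.ne_iff.1 hne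
    rcases lt_or_gt_of_ne hu with h | h
    · exact ⟨u, h⟩
    · have hu0 : u ≠ 0 := by
        rintro rfl
        simp at hu
      refine ⟨u⁻¹, ?_⟩
      rw [map_inv₀, map_inv₀]
      exact (inv_lt_inv₀ ((Valuation.pos_iff wi).2 hu0) ((Valuation.pos_iff wj).2 hu0)).2 h
  obtain ⟨u, hu⟩ := h1
  obtain ⟨γ, h2, h3⟩ := exists_between hu
  have hγ : 0 < γ := lt_of_le_of_lt zero_le h2
  obtain ⟨t, ht⟩ := hv γ⁻¹
  refine ⟨algebraMap T U t * u, ?_, ?_⟩
  · rw [map_mul, hi, ht, inv_mul_lt_iff₀ hγ, mul_one]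
    exact h2
  · rw [map_mul, hj, ht, lt_inv_mul_iff₀ hγ, mul_one]
    exact h3

theorem v4_exists_c (v : Valuation T ℚᵐ⁰) (r : ResMap v kT) [Infinite kT] {ι : Type} [Finite ι]
    (w : ι → Valuation U ℚᵐ⁰) (hw : ∀ i, ValExt (w i) v) (z : U) :
    ∃ c : T, v c = 1 ∧ ∀ l, 1 ≤ w l (1 + algebraMap T U c * z) := by
  classical
  let Bad : ι → Set kT := fun l => {κ | ∃ c : T, v c = 1 ∧ r.res c = κ ∧ w l (1 + algebraMap T U c * z) < 1}
  have hsub : ∀ l, (Bad l).Subsingleton := by
    rintro l _ ⟨c, hc, rfl, hlt⟩ _ ⟨c', hc', rfl, hlt'⟩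
    have hz1 : w l z = 1 := by
      have e : algebraMap T U c * z = (1 + algebraMap T U c * z) - 1 := by ring
      have h1 : w l (algebraMap T U c * z) = 1 := by
        rw [e, Valuation.map_sub_eq_of_lt_right (w l) (by rw [map_one]; exact hlt), map_one]
      rwa [map_mul, hw, hc, one_mul] at h1
    have h2 : w l (algebraMap T U (c - c') * z) < 1 := by
      have e : algebraMap T U (c - c') * z
          = (1 + algebraMap T U c * z) - (1 + algebraMap T U c' * z) := by
        rw [map_sub]; ring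
      rw [e]
      exact ((w l).map_sub _ _).trans_lt (max_lt hlt hlt')
    rw [map_mul, hw, hz1, mul_one] at h2
    exact v4_res_eq_of_sub_lt r hc'.le h2
  have hfin : ((⋃ l, Bad l) ∪ {0}).Finite :=
    (Set.finite_iUnion fun l => (hsub l).finite).union (Set.finite_singleton 0)
  obtain ⟨κ, hκ⟩ := hfin.exists_notMem
  obtain ⟨c, hc, rfl⟩ := v4_exists_res r κ
  have hc1 : v c = 1 := by
    refine le_antisymm hc (not_lt.1 fun h => hκ (Or.inr ?_))
    exact (v4_res_eq_zero_iff r hc).2 h
  refine ⟨c, hc1, fun l => not_lt.1 fun h => hκ (Or.inl ?_)⟩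
  exact Set.mem_iUnion.2 ⟨l, c, hc1, rfl, h⟩

theorem v4_exists_pair (v : Valuation T ℚᵐ⁰) (r : ResMap v kT) (hv : Function.Surjective v)
    [Infinite kT] {ι : Type} [Finite ι] (w : ι → Valuation U ℚᵐ⁰) (hw : ∀ i, ValExt (w i) v)
    (hne : Function.Injective w) {i j : ι} (hij : j ≠ i) :
    ∃ q : U, w i (q - 1) < 1 ∧ w j q < 1 ∧ ∀ l, w l q ≤ 1 := by
  obtain ⟨z, hz1, hz2⟩ := v4_exists_z v hv (hw i) (hw j) (fun h => hij (hne h).symm)
  obtain ⟨c, hc, hcl⟩ := v4_exists_c v r w hw z
  have hcz : ∀ l, w l (algebraMap T U c * z) = w l z := fun l => by rw [map_mul, hw, hc, one_mul]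
  have hi1 : w i (1 + algebraMap T U c * z) = 1 := by
    rw [Valuation.map_add_eq_of_lt_left (w i) (by rw [map_one, hcz]; exact hz1), map_one]
  have hj1 : w j (1 + algebraMap T U c * z) = w j z := by
    rw [Valuation.map_add_eq_of_lt_right (w j) (by rw [map_one, hcz]; exact hz2), hcz]
  have hne0 : 1 + algebraMap T U c * z ≠ 0 := by
    intro h
    rw [h, map_zero] at hi1
    exact zero_ne_one hi1
  refine ⟨(1 + algebraMap T U c * z)⁻¹, ?_, ?_, fun l => ?_⟩
  · have e : (1 + algebraMap T U c * z)⁻¹ - 1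
        = -(algebraMap T U c * z) * (1 + algebraMap T U c * z)⁻¹ := by
      field_simp
      ring
    rw [e, map_mul, map_inv₀, hi1, inv_one, mul_one, Valuation.map_neg, hcz]
    exact hz1
  · rw [map_inv₀, hj1]
    exact inv_lt_one_of_one_lt₀ hz2
  · rw [map_inv₀]
    exact inv_le_one_of_one_le₀ (hcl l)

/-- products of elements `≡ 1` -/
theorem v4_prod_sub_one_lt (w : Valuation U ℚᵐ⁰) {ι : Type} (s : Finset ι) (Q : ι → U)
    (h : ∀ j ∈ s, w (Q j - 1) < 1) : w (∏ j ∈ s, Q j - 1) < 1 := by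
  classical
  induction s using Finset.induction_on with
  | empty => simp
  | insert a s ha ih =>
    rw [Finset.prod_insert ha]
    have h1 := h a (Finset.mem_insert_self _ _)
    have h2 := ih fun j hj => h j (Finset.mem_insert_of_mem hj)
    have hQ : w (Q a) ≤ 1 := by
      have e : Q a = (Q a - 1) + 1 := by ring
      rw [e]
      exact (w.map_add _ _).trans (max_le h1.le (by rw [map_one]))
    have e : Q a * ∏ j ∈ s, Q j - 1 = Q a * (∏ j ∈ s, Q j - 1) + (Q a - 1) := by ring
    rw [e]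
    refine (w.map_add _ _).trans_lt (max_lt ?_ h1)
    rw [map_mul]
    exact (mul_le_of_le_one_left' hQ).trans_lt h2

end v4sep

/-- an element integral at all places, `≡ 1` at `i`, in the maximal ideal at every other place -/
theorem exists_separator {T kT U : Type} [Field T] [Field kT] [Field U] [Algebra T U]
    [FiniteDimensional T U] (v : Valuation T ℚᵐ⁰) (r : ResMap v kT) (hv : Function.Surjective v)
    [Infinite kT] {ι : Type} [Finite ι] (w : ι → Valuation U ℚᵐ⁰) (hw : ∀ i, ValExt (w i) v)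
    (hne : Function.Injective w) (i : ι) :
    ∃ q : U, w i (q - 1) < 1 ∧ ∀ l, l ≠ i → w l q < 1 := by
  classical
  have := Fintype.ofFinite ι
  have hex : ∀ j : ι, ∃ q : U, j ≠ i → (w i (q - 1) < 1 ∧ w j q < 1 ∧ ∀ l, w l q ≤ 1) := by
    intro j
    by_cases hj : j = i
    · exact ⟨0, fun h => absurd hj h⟩
    · obtain ⟨q, hq⟩ := v4_exists_pair v r hv w hw hne hj
      exact ⟨q, fun _ => hq⟩
  choose Q hQ using hex
  refine ⟨∏ j ∈ Finset.univ.erase i, Q j, ?_, fun l hl => ?_⟩
  · exact v4_prod_sub_one_lt (w i) _ Q fun j hj => (hQ j (Finset.ne_of_mem_erase hj)).1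
  · have hmem : l ∈ Finset.univ.erase i := Finset.mem_erase.2 ⟨hl, Finset.mem_univ _⟩
    rw [← Finset.mul_prod_erase _ _ hmem, map_mul, map_prod]
    refine lt_of_le_of_lt (mul_le_of_le_one_right' (Finset.prod_le_one' fun j hj => ?_)) (hQ l hl).2.1
    exact (hQ j (Finset.ne_of_mem_erase (Finset.mem_of_mem_erase hj))).2.2 l

/-- **simultaneous residue approximation** (Lemma simultaneous-residues) -/
theorem simultaneous_residues {T kT U : Type} [Field T] [Field kT] [Field U] [Algebra T U]
    [FiniteDimensional T U] (v : Valuation T ℚᵐ⁰) (r : ResMap v kT) (hv : Function.Surjective v)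
    [Infinite kT] {ι : Type} [Finite ι] (w : ι → Valuation U ℚᵐ⁰) (kw : ι → Type)
    [∀ i, Field (kw i)] (rw : ∀ i, ResMap (w i) (kw i)) (hw : ∀ i, ValExt (w i) v)
    (hne : Function.Injective w) (c : ∀ i, kw i) :
    ∃ a : U, ∀ i, w i a ≤ 1 ∧ (rw i).res a = c i := by
  classical
  have := Fintype.ofFinite ι
  choose q hq1 hq2 using exists_separator v r hv w hw hne
  choose b hb1 hb2 using fun i => v4_exists_res (rw i) (c i)
  have hN : ∀ i l : ι, ∃ N : ℕ, l ≠ i → ∀ n, N ≤ n → w l (q i) ^ n * w l (b i) < 1 := by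
    intro i l
    by_cases hl : l = i
    · exact ⟨0, fun h => absurd hl h⟩
    · obtain ⟨N, hN⟩ := v4_pow_mul_lt_one (hq2 i l hl) (w l (b i))
      exact ⟨N, fun _ => hN⟩
  choose N hN using hN
  let N0 : ℕ := Finset.univ.sup fun x : ι × ι => N x.1 x.2
  have hN0 : ∀ i l, N i l ≤ N0 := fun i l =>
    Finset.le_sup (f := fun x : ι × ι => N x.1 x.2) (Finset.mem_univ (i, l))
  have key : ∀ l, w l (∑ i, q i ^ N0 * b i - b l) < 1 := by
    intro l
    have e : ∑ i, q i ^ N0 * b i - b l
        = (q l ^ N0 - 1) * b l + ∑ i ∈ Finset.univ.erase l, q i ^ N0 * b i := by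
      rw [← Finset.add_sum_erase _ _ (Finset.mem_univ l)]
      ring
    rw [e]
    refine ((w l).map_add _ _).trans_lt (max_lt ?_ ?_)
    · rw [map_mul]
      refine (mul_le_of_le_one_right' (hb1 l)).trans_lt ?_
      have := v4_prod_sub_one_lt (w l) (Finset.range N0) (fun _ => q l) fun _ _ => hq1 l
      simpa using this
    · refine Valuation.map_sum_lt (w l) one_ne_zero fun i hi => ?_
      rw [map_mul, map_pow]
      exact hN i l (Finset.ne_of_mem_erase hi).symm N0 (hN0 i l)
  refine ⟨∑ i, q i ^ N0 * b i, fun l => ⟨?_, ?_⟩⟩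
  · have e : ∑ i, q i ^ N0 * b i = (∑ i, q i ^ N0 * b i - b l) + b l := by ring
    rw [e]
    exact ((w l).map_add _ _).trans (max_le (key l).le (hb1 l))
  · rw [v4_res_eq_of_sub_lt (rw l) (hb1 l) (key l), hb2]

/-- lifts of independent families of residues are independent -/
theorem v4_card_le {T kT U : Type} [Field T] [Field kT] [Field U] [Algebra T U]
    [FiniteDimensional T U] (v : Valuation T ℚᵐ⁰) (r : ResMap v kT) (hv : Function.Surjective v)
    [Infinite kT] {ι : Type} [Fintype ι] (w : ι → Valuation U ℚᵐ⁰) (kw : ι → Type)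
    [∀ i, Field (kw i)] [∀ i, Algebra kT (kw i)] (rw : ∀ i, ResMap (w i) (kw i))
    (hw : ∀ i, ValExt (w i) v) (hr : ∀ i, ResExt (rw i) r) (hne : Function.Injective w)
    (κ : ι → Type) [∀ i, Fintype (κ i)] (b : ∀ i, κ i → kw i) (hb : ∀ i, LinearIndependent kT (b i)) :
    ∑ i, Fintype.card (κ i) ≤ Module.finrank T U := by
  classical
  choose a ha1 ha2 using fun x : Σ i, κ i =>
    simultaneous_residues v r hv w kw rw hw hne (Pi.single x.1 (b x.1 x.2))
  have hli : LinearIndependent T a := by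
    rw [Fintype.linearIndependent_iff]
    intro g hg
    by_contra hcon
    push Not at hcon
    obtain ⟨x1, hx1⟩ := hcon
    obtain ⟨x0, -, hx0⟩ := Finset.exists_max_image Finset.univ (fun x => v (g x)) ⟨x1, Finset.mem_univ _⟩
    have hg0 : g x0 ≠ 0 := by
      have h1 : 0 < v (g x1) := (Valuation.pos_iff v).2 hx1
      exact (Valuation.pos_iff v).1 (h1.trans_le (hx0 x1 (Finset.mem_univ _)))
    have ht1 : ∀ x, v (g x / g x0) ≤ 1 := by
      intro x
      rw [map_div₀]
      exact div_le_one_of_le₀ (hx0 x (Finset.mem_univ _)) zero_le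
    have hsum : ∑ x, algebraMap T U (g x / g x0) * a x = 0 := by
      have h1 : ∑ x, algebraMap T U (g x / g x0) * a x = (g x0)⁻¹ • ∑ x, g x • a x := by
        rw [Finset.smul_sum]
        refine Finset.sum_congr rfl fun x _ => ?_
        rw [smul_smul, Algebra.smul_def, div_eq_inv_mul]
      rw [h1, hg, smul_zero]
    obtain ⟨i0, k0⟩ := x0
    have hterm : ∀ x, w i0 (algebraMap T U (g x / g ⟨i0, k0⟩) * a x) ≤ 1 := by
      intro x
      rw [map_mul, hw]
      exact mul_le_one' (ht1 x) (ha1 x i0)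
    have hres := congrArg (rw i0).res hsum
    rw [v4_res_zero, v4_res_sum (rw i0) _ _ fun x _ => hterm x, Fintype.sum_sigma,
      Finset.sum_eq_single i0] at hres
    · have h2 : ∑ k, r.res (g ⟨i0, k⟩ / g ⟨i0, k0⟩) • b i0 k = 0 := by
        rw [← hres]
        refine Finset.sum_congr rfl fun k _ => ?_
        rw [v4_res_mul (rw i0) (by rw [hw]; exact ht1 _) (ha1 _ i0), hr i0 _ (ht1 _), ha2,
          Algebra.smul_def]
        simp
      have h3 := Fintype.linearIndependent_iff.1 (hb i0) _ h2 k0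
      rw [div_self hg0, v4_res_one] at h3
      exact one_ne_zero h3
    · intro i _ hi
      refine Finset.sum_eq_zero fun k _ => ?_
      rw [v4_res_mul (rw i0) (by rw [hw]; exact ht1 _) (ha1 _ i0), ha2]
      simp [Pi.single_eq_of_ne (Ne.symm hi)]
    · intro h
      exact absurd (Finset.mem_univ _) h
  have := hli.fintype_card_le_finrank
  rwa [Fintype.card_sigma] at this

theorem sum_residue_degree_le {T kT U : Type} [Field T] [Field kT] [Field U] [Algebra T U]
    [FiniteDimensional T U] (v : Valuation T ℚᵐ⁰) (r : ResMap v kT) (hv : Function.Surjective v)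
    [Infinite kT] {ι : Type} [Fintype ι] (w : ι → Valuation U ℚᵐ⁰) (kw : ι → Type)
    [∀ i, Field (kw i)] [∀ i, Algebra kT (kw i)] (rw : ∀ i, ResMap (w i) (kw i))
    (hw : ∀ i, ValExt (w i) v) (hr : ∀ i, ResExt (rw i) r) (hne : Function.Injective w) :
    (∀ i, FiniteDimensional kT (kw i)) ∧
      ∑ i, Module.finrank kT (kw i) ≤ Module.finrank T U := by
  classical
  have hfin : ∀ i, FiniteDimensional kT (kw i) := by
    intro i
    by_contra hcon
    have hcon : ¬ Module.Finite kT (kw i) := hcon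
    rw [← Module.rank_lt_aleph0_iff, not_lt] at hcon
    have h1 : ((Module.finrank T U + 1 : ℕ) : Cardinal) ≤ Module.rank kT (kw i) :=
      Cardinal.natCast_lt_aleph0.le.trans hcon
    obtain ⟨s, hs, hli⟩ := le_rank_iff_exists_linearIndependent_finset.1 h1
    have h2 := v4_card_le v r hv (fun _ : Unit => w i) (fun _ => kw i) (fun _ => rw i) (fun _ => hw i)
      (fun _ => hr i) (fun _ _ _ => rfl) (fun _ => ↥(s : Set (kw i))) (fun _ => (↑)) (fun _ => hli)
    simp only [Finset.univ_unique, Finset.sum_const, Finset.card_singleton, one_smul] at h2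
    have h3 : Fintype.card ↥(s : Set (kw i)) = s.card := by simp
    omega
  refine ⟨hfin, ?_⟩
  have h2 := v4_card_le v r hv w kw rw hw hr hne (fun i => Fin (Module.finrank kT (kw i)))
    (fun i => Module.finBasis kT (kw i)) (fun i => (Module.finBasis kT (kw i)).linearIndependent)
  simpa using h2

end Claimed.Agent.R280
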