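import Claimed.Agent.R280.Val.V0Ext
import Claimed.Agent.R280.Val.V3Orth
import Claimed.Agent.R280.Val.V4Res

/-!
# Row 280, package Val5 (`Val/V5Fin.lean`, ~900 lines): finite and algebraic extensions of a full spherically complete field  ([V] Prop. 6.2, second half)

* Val5a (~600 lines) `sph_finite_ext`.  `N := v'` is a `VNorm v L'` (`ValExt`); orthonormal basis `e` (`VNorm.exists_orthonormal`).  (1) `v'` is onto because `v` is.  (2) spherical completeness: a family of pairwise meeting balls of `L'` gives, in
  each coordinate, a family of pairwise meeting balls of `L` with the same radii (`v' (x - x') = sup_i v (repr x i - repr x' i)`).  (3) `O' = ⊕ O e_i`, `𝔪' = ⊕ 𝔪 e_i`: the residues `r'.res (e i)` form an `F`-basis of `F'`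
  (spanning: `r'.res (∑ a_i e_i) = ∑ r.res a_i • r'.res (e_i)` by `ResExt`; independence: lift a relation, its norm is `1` if some coefficient is a unit).
* Val5b (~300 lines) `sph_ext_unique`.  If `v' x ≠ v'' x`, let `U := L(x)` (finite), restrict both valuations: two distinct prolongations; residue fields from `exists_resExt`; each has degree `[U:L]` by `sph_finite_ext`;
  `sum_residue_degree_le` for `ι = Fin 2` gives `2 [U:L] ≤ [U:L]`.

Owner of the statements: helper129.
-/

set_option autoImplicit false

namespace Claimed.Agent.R280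

open WithZero

/-- finite extensions of a full spherically complete field -/
theorem sph_finite_ext {L F L' F' : Type} [Field L] [Field F] [Field L'] [Field F']
    [Algebra L L'] [Algebra F F'] [FiniteDimensional L L'] [Infinite F] {v : Valuation L ℚᵐ⁰}
    {v' : Valuation L' ℚᵐ⁰} {r : ResMap v F} {r' : ResMap v' F'} (hv : Function.Surjective v)
    (hS : IsSphComplete v) (h : ValExt v' v) (hr : ResExt r' r) :
    Function.Surjective v' ∧ IsSphComplete v' ∧ FiniteDimensional F F' ∧
      Module.finrank F F' = Module.finrank L L' := by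
  classical
  let N : VNorm v L' :=
    { nm := v'
      nm_eq_zero := fun u => map_eq_zero v'
      nm_add := v'.map_add
      nm_smul := fun a u => by rw [Algebra.smul_def, map_mul, h] }
  obtain ⟨e, he⟩ := N.exists_orthonormal hv hS
  have he' : ∀ u : L', v' u = Finset.univ.sup fun i => v (e.repr u i) := he
  have hcoord : ∀ u i, v (e.repr u i) ≤ v' u := fun u i => by
    rw [he']
    exact Finset.le_sup (f := fun i => v (e.repr u i)) (Finset.mem_univ i)
  have hle : ∀ (u : L') (γ : ℚᵐ⁰), (∀ i, v (e.repr u i) ≤ γ) → v' u ≤ γ := fun u γ hu => by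
    rw [he']
    exact Finset.sup_le fun i _ => hu i
  have hrepr : ∀ (c : Fin (Module.finrank L L') → L) (i), e.repr (∑ i, c i • e i) i = c i := fun c i => by
    rw [e.repr_sum_self]
  refine ⟨?_, ?_, ?_⟩
  · intro γ
    obtain ⟨a, rfl⟩ := hv γ
    exact ⟨algebraMap L L' a, h a⟩
  · intro B hB0 hBm
    have hex : ∀ i, ∃ c : L, ∀ b ∈ B, v (c - e.repr b.1 i) ≤ b.2 := by
      intro i
      obtain ⟨c, hc⟩ := hS ((fun b : L' × ℚᵐ⁰ => (e.repr b.1 i, b.2)) '' B)
        (by
          rintro _ ⟨b, hb, rfl⟩
          exact hB0 b hb)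
        (by
          rintro _ ⟨b, hb, rfl⟩ _ ⟨b', hb', rfl⟩
          have h1 : e.repr b.1 i - e.repr b'.1 i = e.repr (b.1 - b'.1) i := by
            rw [map_sub]; rfl
          show v (e.repr b.1 i - e.repr b'.1 i) ≤ max b.2 b'.2
          rw [h1]
          exact (hcoord _ i).trans (hBm b hb b' hb'))
      exact ⟨c, fun b hb => hc _ ⟨b, hb, rfl⟩⟩
    choose c hc using hex
    refine ⟨∑ i, c i • e i, fun b hb => hle _ _ fun i => ?_⟩
    have h1 : e.repr (∑ i, c i • e i - b.1) i = c i - e.repr b.1 i := by
      rw [map_sub, Finsupp.sub_apply, hrepr]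
    rw [h1]
    exact hc i b hb
  · have he1 : ∀ i, v' (e i) ≤ 1 := by
      intro i
      refine hle _ _ fun j => ?_
      rw [e.repr_self, Finsupp.single_apply]
      split_ifs <;> simp
    have hcomb1 : ∀ a : Fin (Module.finrank L L') → L, (∀ i, v (a i) ≤ 1) → ∀ i, v' (a i • e i) ≤ 1 := by
      intro a ha i
      rw [Algebra.smul_def, map_mul, h]
      exact mul_le_one' (ha i) (he1 i)
    have hcomb : ∀ a : Fin (Module.finrank L L') → L, (∀ i, v (a i) ≤ 1) →
        r'.res (∑ i, a i • e i) = ∑ i, r.res (a i) • r'.res (e i) := by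
      intro a ha
      rw [v4_res_sum r' _ _ fun i _ => hcomb1 a ha i]
      refine Finset.sum_congr rfl fun i _ => ?_
      rw [Algebra.smul_def, v4_res_mul r' (by rw [h]; exact ha i) (he1 i), hr _ (ha i), Algebra.smul_def]
    have hli : LinearIndependent F fun i => r'.res (e i) := by
      rw [Fintype.linearIndependent_iff]
      intro g hg i
      choose a ha1 ha2 using fun i => v4_exists_res r (g i)
      have h1 : r'.res (∑ i, a i • e i) = 0 := by
        rw [hcomb a ha1, ← hg]
        exact Finset.sum_congr rfl fun i _ => by rw [ha2]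
      have h2 : v' (∑ i, a i • e i) ≤ 1 := v4_sum_le_one _ _ fun i _ => hcomb1 a ha1 i
      have h3 : v' (∑ i, a i • e i) < 1 := (v4_res_eq_zero_iff r' h2).1 h1
      have h4 : v (a i) < 1 := by
        have := hcoord (∑ i, a i • e i) i
        rw [hrepr] at this
        exact this.trans_lt h3
      rw [← ha2 i]
      exact (v4_res_eq_zero_iff r (ha1 i)).2 h4
    have hsp : ⊤ ≤ Submodule.span F (Set.range fun i => r'.res (e i)) := by
      intro y _
      obtain ⟨u, hu, rfl⟩ := v4_exists_res r' y
      have h1 : r'.res u = ∑ i, r.res (e.repr u i) • r'.res (e i) := by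
        conv_lhs => rw [← e.sum_repr u]
        exact hcomb _ fun i => (hcoord u i).trans hu
      rw [h1]
      exact Submodule.sum_mem _ fun i _ => Submodule.smul_mem _ _ (Submodule.subset_span ⟨i, rfl⟩)
    let bb := Module.Basis.mk hli hsp
    refine ⟨Module.Finite.of_basis bb, ?_⟩
    rw [Module.finrank_eq_card_basis bb, Fintype.card_fin]

/-- the residue degree bound for two prolongations -/
theorem v5_two {T kT U : Type} [Field T] [Field kT] [Field U] [Algebra T U]
    [FiniteDimensional T U] (v : Valuation T ℚᵐ⁰) (r : ResMap v kT) (hv : Function.Surjective v)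
    [Infinite kT] {w0 w1 : Valuation U ℚᵐ⁰} {k0 k1 : Type} [i0 : Field k0] [i1 : Field k1]
    [a0 : Algebra kT k0] [a1 : Algebra kT k1] (r0 : ResMap w0 k0) (r1 : ResMap w1 k1)
    (h0 : ValExt w0 v) (h1 : ValExt w1 v) (hr0 : ResExt r0 r) (hr1 : ResExt r1 r) (hne : w0 ≠ w1) :
    Module.finrank kT k0 + Module.finrank kT k1 ≤ Module.finrank T U := by
  have key := @sum_residue_degree_le T kT U _ _ _ _ _ v r hv _ Bool _
    (fun b => Bool.rec w0 w1 b) (fun b => Bool.rec k0 k1 b)
    (fun b => by cases b; exact i0; exact i1)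
    (fun b => by cases b; exact a0; exact a1)
    (fun b => by cases b; exact r0; exact r1)
    (fun b => by cases b; exact h0; exact h1)
    (fun b => by cases b; exact hr0; exact hr1)
    (by
      intro b b' hbb
      cases b <;> cases b'
      · rfl
      · exact absurd hbb hne
      · exact absurd hbb.symm hne
      · rfl)
  have h2 := key.2
  rw [Fintype.sum_bool] at h2
  rw [add_comm]
  exact h2

/-- uniqueness of the prolongation -/
theorem sph_ext_unique {L F L' : Type} [Field L] [Field F] [Field L'] [Algebra L L']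
    [Algebra.IsAlgebraic L L'] [Infinite F] {v : Valuation L ℚᵐ⁰} (r : ResMap v F)
    (hv : Function.Surjective v) (hS : IsSphComplete v) {v' v'' : Valuation L' ℚᵐ⁰}
    (h : ValExt v' v) (h' : ValExt v'' v) : v' = v'' := by
  by_contra hne
  obtain ⟨x, hx⟩ := DFunLike.ne_iff.1 hne
  have hint : IsIntegral L x := (Algebra.IsAlgebraic.isAlgebraic x).isIntegral
  have hfd : FiniteDimensional L (IntermediateField.adjoin L {x}) :=
    IntermediateField.adjoin.finiteDimensional hint
  have hw0 : ValExt (v'.comap (algebraMap (IntermediateField.adjoin L {x}) L')) v := fun a => h a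
  have hw1 : ValExt (v''.comap (algebraMap (IntermediateField.adjoin L {x}) L')) v := fun a => h' a
  have hw : v'.comap (algebraMap (IntermediateField.adjoin L {x}) L')
      ≠ v''.comap (algebraMap (IntermediateField.adjoin L {x}) L') := by
    intro heq
    exact hx (DFunLike.congr_fun heq ⟨x, IntermediateField.mem_adjoin_simple_self L x⟩)
  obtain ⟨F0, i0, a0, r0, hr0⟩ := exists_resExt r hw0
  obtain ⟨F1, i1, a1, r1, hr1⟩ := exists_resExt r hw1
  have e0 := (sph_finite_ext hv hS hw0 hr0).2.2.2
  have e1 := (sph_finite_ext hv hS hw1 hr1).2.2.2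
  have h2 := v5_two v r hv r0 r1 hw0 hw1 hr0 hr1 hw
  have hpos : 0 < Module.finrank L (IntermediateField.adjoin L {x}) := Module.finrank_pos
  omega

end Claimed.Agent.R280
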